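import Vale.Agent.P100.Puncture

/-!
Moving spheres with anisotropic powers for the Hénon-Lane-Emden system.

For exponents `a, b ≥ (n - 2) / 2` with `p b < 2 + A + a` and `q a = 2 + B + b` the functions
`|x| ^ a u` and `|x| ^ b v` are shown to increase along every ray; the resulting lower bounds are
then improved by barriers until they contradict the maximum principle.
-/

open Set Filter Metric Laplacian InnerProductSpace Real
open scoped Topology RealInnerProductSpace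

namespace Vale.Agent.P100.Sphere

noncomputable section

variable {n : ℕ}

/-- The reflected point `l ^ 2 x / |x| ^ 2`. -/
def invp (l : ℝ) (x : EuclideanSpace ℝ (Fin n)) : EuclideanSpace ℝ (Fin n) :=
  (l ^ 2 / ‖x‖ ^ 2) • x

/-- The reflected function with power `2 a`. -/
def refl (a : ℝ) (u : EuclideanSpace ℝ (Fin n) → ℝ) (l : ℝ) (x : EuclideanSpace ℝ (Fin n)) : ℝ :=
  (l / ‖x‖) ^ (2 * a) * u (invp l x)

/-- Comparison with the reflection in every point outside the sphere of radius `l`. -/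
def Above (a : ℝ) (u : EuclideanSpace ℝ (Fin n) → ℝ) (l : ℝ) : Prop :=
  ∀ x, l ≤ ‖x‖ → refl a u l x ≤ u x

theorem norm_invp {l : ℝ} (hl : 0 < l) {x : EuclideanSpace ℝ (Fin n)} (hx : x ≠ 0) :
    ‖invp l x‖ = l ^ 2 / ‖x‖ := by
  have := norm_pos_iff.2 hx
  rw [invp, norm_smul, Real.norm_eq_abs, abs_of_pos (by positivity)]
  field_simp

theorem invp_ne {l : ℝ} (hl : 0 < l) {x : EuclideanSpace ℝ (Fin n)} (hx : x ≠ 0) :
    invp l x ≠ 0 :=
  norm_pos_iff.1 (by rw [norm_invp hl hx]; have := norm_pos_iff.2 hx; positivity)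

theorem invp_self {l : ℝ} (hl : 0 < l) {x : EuclideanSpace ℝ (Fin n)} (hx : ‖x‖ = l) :
    invp l x = x := by
  rw [invp, hx, div_self (pow_ne_zero _ hl.ne'), one_smul]

theorem refl_self {a l : ℝ} {u : EuclideanSpace ℝ (Fin n) → ℝ} (hl : 0 < l)
    {x : EuclideanSpace ℝ (Fin n)} (hx : ‖x‖ = l) : refl a u l x = u x := by
  rw [refl, invp_self hl hx, hx, div_self hl.ne', one_rpow, one_mul]

/-- The map `x ↦ φ (|x| ^ 2) u (k x / |x| ^ 2)`. -/
def comp (φ : ℝ → ℝ) (k : ℝ) (u : EuclideanSpace ℝ (Fin n) → ℝ) (z : EuclideanSpace ℝ (Fin n)) :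
    ℝ :=
  φ (‖z‖ ^ 2) * u ((k / ‖z‖ ^ 2) • z)

theorem contDiffAt_comp {φ : ℝ → ℝ} {k : ℝ} {u : EuclideanSpace ℝ (Fin n) → ℝ}
    {x : EuclideanSpace ℝ (Fin n)} (hx : x ≠ 0) (hφ : ContDiffAt ℝ 2 φ (‖x‖ ^ 2))
    (hu : ContDiffAt ℝ 2 u ((k / ‖x‖ ^ 2) • x)) : ContDiffAt ℝ 2 (comp φ k u) x := by
  have hn : ContDiffAt ℝ 2 (fun z : EuclideanSpace ℝ (Fin n) => ‖z‖ ^ 2) x :=
    (contDiff_norm_sq ℝ).contDiffAt
  have hc : ContDiffAt ℝ 2 (fun z : EuclideanSpace ℝ (Fin n) => (k / ‖z‖ ^ 2) • z) x :=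
    (contDiffAt_const.div hn (pow_ne_zero _ (norm_ne_zero_iff.2 hx))).smul contDiffAt_id
  exact (ContDiffAt.comp (g := φ) x hφ hn).mul (ContDiffAt.comp (g := u) x hu hc)

/-- The Laplacian of a radial multiple of an inversion. -/
theorem laplacian_comp {φ d1 : ℝ → ℝ} {d2 k : ℝ} {u : EuclideanSpace ℝ (Fin n) → ℝ}
    {x : EuclideanSpace ℝ (Fin n)} (hx : x ≠ 0) (hφ : ContDiffAt ℝ 2 φ (‖x‖ ^ 2))
    (h1 : ∀ᶠ s in 𝓝 (‖x‖ ^ 2), HasDerivAt φ (d1 s) s) (h2 : HasDerivAt d1 d2 (‖x‖ ^ 2))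
    (hu : ContDiffAt ℝ 2 u ((k / ‖x‖ ^ 2) • x)) :
    Δ (comp φ k u) x =
      (4 * d2 * ‖x‖ ^ 2 + 2 * n * d1 (‖x‖ ^ 2)) * u ((k / ‖x‖ ^ 2) • x) +
        φ (‖x‖ ^ 2) * (k / ‖x‖ ^ 2) ^ 2 * Δ u ((k / ‖x‖ ^ 2) • x) -
        (4 * d1 (‖x‖ ^ 2) + 2 * (n - 2) * φ (‖x‖ ^ 2) / ‖x‖ ^ 2) *
          fderiv ℝ u ((k / ‖x‖ ^ 2) • x) ((k / ‖x‖ ^ 2) • x) := by
  set S := ‖x‖ ^ 2 with hS
  have hS0 : 0 < S := pow_pos (norm_pos_iff.2 hx) 2
  set y := (k / S) • x with hy
  set b := EuclideanSpace.basisFun (Fin n) ℝ with hb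
  set b' := b.map ((ℝ ∙ x)ᗮ.reflection) with hb'
  have hb'a : ∀ i, b' i = b i - (2 * ⟪x, b i⟫ / S) • x := by
    intro i
    rw [hb', OrthonormalBasis.map_apply, Submodule.reflection_orthogonal_apply,
      Submodule.reflection_singleton_apply, hS, neg_sub, ← Nat.cast_smul_eq_nsmul ℝ, smul_smul]
    simp only [RCLike.ofReal_real_eq_id, id_eq, Nat.cast_ofNat, mul_div_assoc]
  set D := fderiv ℝ u y with hD
  have key : ∀ i, iteratedFDeriv ℝ 2 (comp φ k u) x ![b i, b i] =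
      (4 * d2 * ⟪x, b i⟫ ^ 2 + 2 * d1 S) * u y +
        φ S * (k / S) ^ 2 * iteratedFDeriv ℝ 2 u y ![b' i, b' i] +
        4 * d1 S * (k / S) * (⟪x, b i⟫ * D (b' i)) +
        φ S * (k / S ^ 2) * D ((-4 * ⟪x, b i⟫) • b i + (-2 + 8 * ⟪x, b i⟫ ^ 2 / S) • x) := by
    intro i
    set e := b i with he
    set ξ := ⟪x, e⟫ with hξ
    set σ : ℝ → ℝ := fun t => S + 2 * ξ * t + t ^ 2 with hσd
    have hσn : ∀ t, ‖x + t • e‖ ^ 2 = σ t := fun t => by
      rw [norm_add_sq_real, real_inner_smul_right, norm_smul, b.orthonormal.1 i, mul_one,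
        Real.norm_eq_abs, sq_abs]
      simp only [hσd, hξ, hS]
      ring
    have hσ : ∀ t, HasDerivAt σ (2 * ξ + 2 * t) t := fun t => by
      exact ((((hasDerivAt_id t).const_mul (2 * ξ)).const_add S).add
        (hasDerivAt_pow 2 t)).congr_deriv (by simp)
    have hσ0 : σ 0 = S := by simp [hσd]
    set c : ℝ → EuclideanSpace ℝ (Fin n) := fun t => (k / σ t) • (x + t • e) with hc
    set c1 : ℝ → EuclideanSpace ℝ (Fin n) := fun t =>
      (k / σ t) • e + (-(k * (2 * ξ + 2 * t)) / σ t ^ 2) • (x + t • e) with hc1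
    have hc0 : c 0 = y := by simp [hc, hσ0, hy]
    have hc10 : c1 0 = (k / S) • b' i := by
      simp only [hc1, hσ0, hb'a, ← he, ← hξ, smul_sub, smul_smul, mul_zero, add_zero, zero_smul]
      rw [sub_eq_add_neg, ← neg_smul]
      congr 2
      field_simp
    have hev : ∀ᶠ t in 𝓝 (0 : ℝ), σ t ≠ 0 :=
      (hσ 0).continuousAt.eventually_ne (by rw [hσ0]; exact hS0.ne')
    have hlin : ∀ t : ℝ, HasDerivAt (fun t => x + t • e) e t := fun t => by
      simpa using ((hasDerivAt_id t).smul_const e).const_add x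
    have hcd : ∀ t, σ t ≠ 0 → HasDerivAt c (c1 t) t := fun t ht => by
      refine (((hasDerivAt_const t k).div (hσ t) ht).smul (hlin t)).congr_deriv ?_
      simp only [hc1, zero_mul, zero_sub, Pi.div_apply]
    have hc1d : HasDerivAt c1
        ((k / S ^ 2) • ((-4 * ξ) • e + (-2 + 8 * ξ ^ 2 / S) • x)) 0 := by
      have hA : HasDerivAt (fun t => k / σ t) (-(k * (2 * ξ)) / S ^ 2) 0 :=
        ((hasDerivAt_const 0 k).div (hσ 0) (by rw [hσ0]; exact hS0.ne')).congr_deriv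
          (by simp [hσ0])
      have hnum : HasDerivAt (fun t : ℝ => -(k * (2 * ξ + 2 * t))) (-(k * 2)) 0 := by
        exact (((((hasDerivAt_id (0 : ℝ)).const_mul 2).const_add (2 * ξ)).const_mul k).neg).congr_deriv
          (by ring)
      have hden : HasDerivAt (fun t => σ t ^ 2) (4 * S * ξ) 0 :=
        ((hσ 0).pow 2).congr_deriv (by simp [hσ0]; ring)
      have hB : HasDerivAt (fun t => -(k * (2 * ξ + 2 * t)) / σ t ^ 2)
          ((-(k * 2) * S ^ 2 + k * (2 * ξ) * (4 * S * ξ)) / S ^ 4) 0 :=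
        (hnum.div hden (by rw [hσ0]; positivity)).congr_deriv (by simp [hσ0]; ring)
      refine ((hA.smul_const e).add (hB.smul (hlin 0))).congr_deriv ?_
      simp only [mul_zero, add_zero, zero_smul, hσ0, smul_add, smul_smul]
      match_scalars <;> field_simp <;> ring
    have hu' : ∀ᶠ t in 𝓝 (0 : ℝ), ContDiffAt ℝ 2 u (c t) := by
      have hcc : ContinuousAt c 0 := (hcd 0 (by rw [hσ0]; exact hS0.ne')).continuousAt
      exact hcc.eventually (by rw [hc0]; exact hu.eventually (by norm_num))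
    have hφ' : ∀ᶠ t in 𝓝 (0 : ℝ), HasDerivAt φ (d1 (σ t)) (σ t) :=
      (hσ 0).continuousAt.eventually (by rw [hσ0]; exact h1)
    set Q1 : ℝ → ℝ := fun t =>
      d1 (σ t) * (2 * ξ + 2 * t) * u (c t) + φ (σ t) * fderiv ℝ u (c t) (c1 t) with hQ1
    have hQ : ∀ᶠ t in 𝓝 (0 : ℝ), HasDerivAt (fun t => comp φ k u (x + t • e)) (Q1 t) t := by
      filter_upwards [hev, hu', hφ'] with t ht hut hφt
      have h := (hφt.comp t (hσ t)).mul
        ((hut.differentiableAt (by norm_num)).hasFDerivAt.comp_hasDerivAt t (hcd t ht))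
      simp only [comp, hσn]
      exact h
    have hQ' : HasDerivAt Q1 (d2 * (2 * ξ) * (2 * ξ) * u y + d1 S * 2 * u y +
        d1 S * (2 * ξ) * D (c1 0) + (d1 S * (2 * ξ) * D (c1 0) + φ S *
          (fderiv ℝ (fderiv ℝ u) y (c1 0) (c1 0) +
            D ((k / S ^ 2) • ((-4 * ξ) • e + (-2 + 8 * ξ ^ 2 / S) • x))))) 0 := by
      have hd1 : HasDerivAt (fun t => d1 (σ t)) (d2 * (2 * ξ)) 0 :=
        (HasDerivAt.comp (h₂ := d1) 0 (by rw [hσ0]; exact h2) (hσ 0)).congr_deriv (by simp)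
      have hl : HasDerivAt (fun t : ℝ => 2 * ξ + 2 * t) 2 0 := by
        simpa using ((hasDerivAt_id (0 : ℝ)).const_mul 2).const_add (2 * ξ)
      have hφ0 : HasDerivAt (fun t => φ (σ t)) (d1 S * (2 * ξ)) 0 :=
        ((hφ'.self_of_nhds).comp 0 (hσ 0)).congr_deriv (by simp [hσ0])
      have hz : σ 0 ≠ 0 := by rw [hσ0]; exact hS0.ne'
      have huc : HasDerivAt (fun t => u (c t)) (D (c1 0)) 0 := by
        have h := (hu'.self_of_nhds.differentiableAt (by norm_num)).hasFDerivAt.comp_hasDerivAt 0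
          (hcd 0 hz)
        refine h.congr_deriv ?_
        rw [hc0]
      have h2u : DifferentiableAt ℝ (fderiv ℝ u) y :=
        (hu.fderiv_right (m := 1) (by norm_num)).differentiableAt (by norm_num)
      have hF : HasDerivAt (fun t => fderiv ℝ u (c t)) (fderiv ℝ (fderiv ℝ u) y (c1 0)) 0 := by
        have h2' : HasFDerivAt (fderiv ℝ u) (fderiv ℝ (fderiv ℝ u) y) (c 0) := by
          rw [hc0]; exact h2u.hasFDerivAt
        exact h2'.comp_hasDerivAt 0 (hcd 0 hz)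
      refine (((hd1.mul hl).mul huc).add (hφ0.mul (hF.clm_apply hc1d))).congr_deriv ?_
      simp only [Pi.mul_apply, hσ0, hc0, mul_zero, add_zero, ← hD]
      ring
    obtain ⟨q', hq, hq'⟩ := line_deriv (e := e) (contDiffAt_comp hx hφ hu)
    have heq : q' =ᶠ[𝓝 0] Q1 := by
      filter_upwards [hq, hQ] with t h h' using h.unique h'
    rw [(hq'.congr_of_eventuallyEq heq.symm).unique hQ', iteratedFDeriv_two_apply, hc10]
    simp only [Matrix.cons_val_zero, Matrix.cons_val_one, map_smul, smul_eq_mul,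
      ← ContinuousLinearMap.smul_apply]
    simp only [ContinuousLinearMap.smul_apply, smul_eq_mul]
    ring
  rw [laplacian_eq_iteratedFDeriv_orthonormalBasis _ b]
  simp only [key, Finset.sum_add_distrib]
  have e1 : ∑ i, (4 * d2 * ⟪x, b i⟫ ^ 2 + 2 * d1 S) * u y =
      (4 * d2 * S + 2 * n * d1 S) * u y := by
    rw [← Finset.sum_mul, Finset.sum_add_distrib, ← Finset.mul_sum, b.sum_sq_inner_left]
    simp [hS, mul_left_comm, mul_assoc]
  have e2 : ∑ i, φ S * (k / S) ^ 2 * iteratedFDeriv ℝ 2 u y ![b' i, b' i] =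
      φ S * (k / S) ^ 2 * Δ u y := by
    rw [← Finset.mul_sum, laplacian_eq_iteratedFDeriv_orthonormalBasis u b']
  have hx1 : ∑ i, ⟪x, b i⟫ • b i = x := by
    simp_rw [real_inner_comm (b _) x]; exact b.sum_repr' x
  have hx2 : ∑ i, ⟪x, b i⟫ ^ 2 = S := b.sum_sq_inner_left x
  have e3 : ∑ i, 4 * d1 S * (k / S) * (⟪x, b i⟫ * D (b' i)) = -(4 * d1 S * D y) := by
    have h : ∑ i, ⟪x, b i⟫ • b' i = -x := by
      simp_rw [hb'a, smul_sub, smul_smul, Finset.sum_sub_distrib, hx1, ← Finset.sum_smul]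
      rw [show ∑ i, ⟪x, b i⟫ * (2 * ⟪x, b i⟫ / S) = 2 * (∑ i, ⟪x, b i⟫ ^ 2) / S by
        rw [Finset.mul_sum, Finset.sum_div]; exact Finset.sum_congr rfl fun i _ => by ring, hx2,
        mul_div_assoc, div_self hS0.ne', mul_one, two_smul]
      abel
    have h' := congrArg D h
    simp only [map_sum, map_smul, smul_eq_mul, map_neg] at h'
    rw [← Finset.mul_sum, h', hy, map_smul, smul_eq_mul]
    ring
  have e4 : ∑ i, φ S * (k / S ^ 2) *
      D ((-4 * ⟪x, b i⟫) • b i + (-2 + 8 * ⟪x, b i⟫ ^ 2 / S) • x) =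
        -(2 * (n - 2) * φ S / S * D y) := by
    rw [← Finset.mul_sum, ← map_sum, Finset.sum_add_distrib, ← Finset.sum_smul,
      Finset.sum_add_distrib, ← Finset.sum_div, ← Finset.mul_sum, hx2]
    simp_rw [← smul_smul, ← Finset.smul_sum, hx1]
    rw [← add_smul, hy, map_smul, map_smul]
    simp only [Finset.sum_const, Finset.card_univ, Fintype.card_fin, nsmul_eq_mul, smul_eq_mul]
    field_simp
    ring
  rw [e1, e2, e3, e4]
  ring

variable {a : ℝ} {u : EuclideanSpace ℝ (Fin n) → ℝ}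

theorem refl_eq_comp {l : ℝ} (hl : 0 < l) {x : EuclideanSpace ℝ (Fin n)} :
    refl a u l x = comp (fun s => l ^ (2 * a) * (√s) ^ (-(2 * a))) (l ^ 2) u x := by
  simp only [refl, comp, invp, sqrt_sq (norm_nonneg x)]
  rw [div_rpow hl.le (norm_nonneg x), rpow_neg (norm_nonneg x), div_eq_mul_inv]

theorem hasDerivAt_pw (c e s : ℝ) (hs : 0 < s) :
    HasDerivAt (fun s => c * s ^ e) (c * e * s ^ (e - 1)) s :=
  ((Real.hasDerivAt_rpow_const (Or.inl hs.ne')).const_mul c).congr_deriv (by ring)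

theorem laplacian_refl {l : ℝ} (hl : 0 < l) {x : EuclideanSpace ℝ (Fin n)} (hx : x ≠ 0)
    (hu : ContDiffAt ℝ 2 u (invp l x)) :
    ContDiffAt ℝ 2 (refl a u l) x ∧ Δ (refl a u l) x =
      (l / ‖x‖) ^ (2 * a) / ‖x‖ ^ 2 *
        (2 * (2 * a + 2 - n) * (a * u (invp l x) + fderiv ℝ u (invp l x) (invp l x))) +
      (l / ‖x‖) ^ (2 * a) * (l ^ 2 / ‖x‖ ^ 2) ^ 2 * Δ u (invp l x) := by
  have hs : 0 < ‖x‖ ^ 2 := pow_pos (norm_pos_iff.2 hx) 2
  set φ : ℝ → ℝ := fun s => l ^ (2 * a) * s ^ (-a) with hφ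
  have he : refl a u l = comp φ (l ^ 2) u := by
    funext z
    simp only [refl, comp, invp, hφ]
    rw [← rpow_natCast ‖z‖ 2, ← rpow_mul (norm_nonneg z), div_rpow hl.le (norm_nonneg z),
      show ((2 : ℕ) : ℝ) * -a = -(2 * a) by push_cast; ring, rpow_neg (norm_nonneg z),
      rpow_natCast, div_eq_mul_inv]
  have hφc : ContDiffAt ℝ 2 φ (‖x‖ ^ 2) :=
    contDiffAt_const.mul (Real.contDiffAt_rpow_const_of_ne hs.ne')
  set d1 : ℝ → ℝ := fun s => l ^ (2 * a) * -a * s ^ (-a - 1)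
  have h1 : ∀ᶠ s in 𝓝 (‖x‖ ^ 2), HasDerivAt φ (d1 s) s :=
    eventually_of_mem (Ioi_mem_nhds hs) fun s hs => hasDerivAt_pw _ _ s hs
  have h2 := hasDerivAt_pw (l ^ (2 * a) * -a) (-a - 1) _ hs
  refine ⟨he ▸ contDiffAt_comp hx hφc hu, ?_⟩
  rw [he, laplacian_comp hx hφc h1 h2 hu]
  have hw : (l / ‖x‖) ^ (2 * a) = l ^ (2 * a) * (‖x‖ ^ 2) ^ (-a) := by
    rw [← rpow_natCast ‖x‖ 2, ← rpow_mul (norm_nonneg x), div_rpow hl.le (norm_nonneg x),
      show ((2 : ℕ) : ℝ) * -a = -(2 * a) by push_cast; ring, rpow_neg (norm_nonneg x),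
      div_eq_mul_inv]
  rw [hw, ← invp]
  simp only [hφ, d1, rpow_sub_one hs.ne']
  field_simp
  ring

/-- A lower radial barrier on an annulus, for functions regular on the annulus only. -/
theorem annulus_ge {w : EuclideanSpace ℝ (Fin n) → ℝ} {φ d1 d2 : ℝ → ℝ} {ε ρ : ℝ}
    (hε : 0 < ε) (hw : ∀ x, ε ≤ ‖x‖ → ‖x‖ ≤ ρ → ContDiffAt ℝ 2 w x)
    (h1 : ∀ s, 0 < s → HasDerivAt φ (d1 s) s) (h2 : ∀ s, 0 < s → HasDerivAt d1 (d2 s) s)
    (hlap : ∀ x, ε < ‖x‖ → ‖x‖ < ρ →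
      Δ w x < 4 * d2 (‖x‖ ^ 2) * ‖x‖ ^ 2 + 2 * n * d1 (‖x‖ ^ 2))
    (hin : ∀ x, ‖x‖ = ε → φ (ε ^ 2) ≤ w x) (hout : ∀ x, ‖x‖ = ρ → φ (ρ ^ 2) ≤ w x)
    {x : EuclideanSpace ℝ (Fin n)} (hx : ε ≤ ‖x‖) (hx' : ‖x‖ ≤ ρ) : φ (‖x‖ ^ 2) ≤ w x := by
  set S : Set (EuclideanSpace ℝ (Fin n)) := {y | ε ≤ ‖y‖} ∩ closedBall 0 ρ with hS
  have hmem : ∀ y, y ∈ S ↔ ε ≤ ‖y‖ ∧ ‖y‖ ≤ ρ := fun y => by simp [hS]
  have hSc : IsCompact S :=
    (isCompact_closedBall 0 ρ).inter_left (isClosed_le continuous_const continuous_norm)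
  have hc : ContinuousOn (fun y => w y - φ (‖y‖ ^ 2)) S := fun y hy => by
    obtain ⟨hy1, hy2⟩ := (hmem y).1 hy
    have hy0 : 0 < ‖y‖ ^ 2 := pow_pos (hε.trans_le hy1) 2
    refine ((hw y hy1 hy2).continuousAt.sub ?_).continuousWithinAt
    exact (h1 _ hy0).continuousAt.comp (f := fun y : EuclideanSpace ℝ (Fin n) => ‖y‖ ^ 2)
      (by fun_prop)
  obtain ⟨z, hz, hzmin⟩ := hSc.exists_isMinOn ⟨x, (hmem x).2 ⟨hx, hx'⟩⟩ hc
  have hzx : w z - φ (‖z‖ ^ 2) ≤ w x - φ (‖x‖ ^ 2) := hzmin ((hmem x).2 ⟨hx, hx'⟩)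
  obtain ⟨hz1, hz2⟩ := (hmem z).1 hz
  rcases hz1.eq_or_lt with e | hz1
  · have := hin z e.symm; rw [← e] at hzx; linarith
  rcases hz2.eq_or_lt with e | hz2
  · have := hout z e; rw [e] at hzx; linarith
  exfalso
  have hnhds : S ∈ 𝓝 z := by
    refine mem_of_superset ((isOpen_Ioo.preimage continuous_norm).mem_nhds
      (show z ∈ norm ⁻¹' Ioo ε ρ from ⟨hz1, hz2⟩)) fun y hy => (hmem y).2 ⟨hy.1.le, hy.2.le⟩
  have hz0 : 0 < ‖z‖ ^ 2 := pow_pos (hε.trans hz1) 2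
  exact absurd (laplacian_ge_radial (hw z hz1.le hz2.le)
    (eventually_of_mem (Ioi_mem_nhds hz0) fun s hs => h1 s hs) (h2 _ hz0)
    (hzmin.isLocalMin hnhds)) (not_le.2 (hlap z hz1 hz2))

/-- The radial power `|x| ^ (-m)` as a function of `|x| ^ 2`. -/
theorem power_data (m c₀ c : ℝ) :
    (∀ s, 0 < s → HasDerivAt (fun s => c₀ + c * s ^ (-m / 2)) (c * (-m / 2) * s ^ (-m / 2 - 1)) s) ∧
    (∀ s, 0 < s → HasDerivAt (fun s => c * (-m / 2) * s ^ (-m / 2 - 1))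
      (c * (-m / 2) * (-m / 2 - 1) * s ^ (-m / 2 - 1 - 1)) s) ∧
    ∀ r : ℝ, 0 < r → 4 * (c * (-m / 2) * (-m / 2 - 1) * (r ^ 2) ^ (-m / 2 - 1 - 1)) * r ^ 2 +
      2 * n * (c * (-m / 2) * (r ^ 2) ^ (-m / 2 - 1)) = c * m * (m + 2 - n) * r ^ (-m - 2) := by
  refine ⟨fun s hs => (hasDerivAt_pw c _ s hs).const_add c₀,
    fun s hs => hasDerivAt_pw _ _ s hs, fun r hr => ?_⟩
  have hr2 : 0 < r ^ 2 := by positivity
  have e : (r ^ 2) ^ (-m / 2 - 1) = r ^ (-m - 2) := by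
    rw [← rpow_natCast r 2, ← rpow_mul hr.le]; congr 1; push_cast; ring
  rw [rpow_sub_one hr2.ne', e]
  field_simp
  ring

theorem pow_two_rpow {r : ℝ} (hr : 0 ≤ r) (m : ℝ) : (r ^ 2) ^ (-m / 2) = r ^ (-m) := by
  rw [← rpow_natCast r 2, ← rpow_mul hr]; congr 1; push_cast; ring

/-- A strictly superharmonic function outside a ball, with nonnegative lower limit at infinity,
stays above the harmonic function of its boundary minimum. -/
theorem exterior_ge (hn : 3 ≤ n) {w : EuclideanSpace ℝ (Fin n) → ℝ} {ρ c : ℝ} (hρ : 0 < ρ)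
    (hw : ∀ x, ρ ≤ ‖x‖ → ContDiffAt ℝ 2 w x) (hlap : ∀ x, ρ < ‖x‖ → Δ w x < 0)
    (hin : ∀ x, ‖x‖ = ρ → c ≤ w x)
    (hinf : ∀ δ : ℝ, 0 < δ → ∃ R, ∀ x, R ≤ ‖x‖ → -δ ≤ w x)
    {x : EuclideanSpace ℝ (Fin n)} (hx : ρ ≤ ‖x‖) : c * (ρ / ‖x‖) ^ ((n : ℝ) - 2) ≤ w x := by
  set m : ℝ := (n : ℝ) - 2 with hm
  have hn3 : (3 : ℝ) ≤ n := by exact_mod_cast hn
  have hm0 : 0 < m := by linarith
  refine le_of_forall_pos_le_add fun δ hδ => ?_
  obtain ⟨R, hR⟩ := hinf (δ / 2) (half_pos hδ)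
  -- beyond `R'` the harmonic function is below `δ / 2`
  have hlim : Tendsto (fun r : ℝ => c * ρ ^ m * r ^ (-m)) atTop (𝓝 0) := by
    simpa using (tendsto_rpow_neg_atTop hm0).const_mul (c * ρ ^ m)
  obtain ⟨R', hR'⟩ := eventually_atTop.1 (hlim.eventually (eventually_le_nhds (half_pos hδ)))
  obtain ⟨T, hT1, hT2, hT3⟩ : ∃ T, ‖x‖ ≤ T ∧ R ≤ T ∧ R' ≤ T :=
    ⟨max ‖x‖ (max R R'), le_max_left _ _, (le_max_left _ _).trans (le_max_right _ _),
      (le_max_right _ _).trans (le_max_right _ _)⟩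
  obtain ⟨h1, h2, h3⟩ := power_data (n := n) m (-δ) (c * ρ ^ m)
  have h := annulus_ge (ρ := T) hρ (fun y hy _ => hw y hy) h1 h2 (fun y hy _ => ?_) (fun y hy => ?_)
    (fun y hy => ?_) hx hT1
  · rw [pow_two_rpow (norm_nonneg x)] at h
    have e : c * ρ ^ m * ‖x‖ ^ (-m) = c * (ρ / ‖x‖) ^ m := by
      rw [div_rpow hρ.le (norm_nonneg x), rpow_neg (norm_nonneg x)]; ring
    linarith
  · rw [h3 _ (hρ.trans hy), show m + 2 - (n : ℝ) = 0 by rw [hm]; ring, mul_zero, zero_mul]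
    exact hlap y hy
  · rw [pow_two_rpow hρ.le, mul_assoc, ← rpow_add hρ, add_neg_cancel, rpow_zero, mul_one]
    linarith [hin y hy]
  · rw [pow_two_rpow (hρ.le.trans (hx.trans hT1))]
    have := hR y (hy ▸ hT2)
    have := hR' T hT3
    linarith

/-- The radial derivative of `|x| ^ a u` in the variable `log |x|`. -/
def rayD (a : ℝ) (u : EuclideanSpace ℝ (Fin n) → ℝ) (x : EuclideanSpace ℝ (Fin n)) : ℝ :=
  a * u x + fderiv ℝ u x x

theorem hasDerivAt_ray (a : ℝ) {x : EuclideanSpace ℝ (Fin n)} {s : ℝ} (hs : 0 < s)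
    (hu : DifferentiableAt ℝ u (s • x)) :
    HasDerivAt (fun t : ℝ => t ^ a * u (t • x)) (s ^ (a - 1) * rayD a u (s • x)) s := by
  have h1 : HasDerivAt (fun t : ℝ => u (t • x)) (fderiv ℝ u (s • x) x) s :=
    hu.hasFDerivAt.comp_hasDerivAt s (by simpa using (hasDerivAt_id s).smul_const x)
  refine ((Real.hasDerivAt_rpow_const (Or.inl hs.ne')).mul h1).congr_deriv ?_
  rw [rayD, map_smul, smul_eq_mul, rpow_sub_one hs.ne']
  field_simp

theorem invp_smul {l s : ℝ} {x : EuclideanSpace ℝ (Fin n)} (hx : ‖x‖ = 1) (hs : 0 < s) :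
    invp l (s • x) = (l ^ 2 / s) • x := by
  rw [invp, norm_smul, hx, mul_one, Real.norm_eq_abs, sq_abs, smul_smul]
  congr 1
  field_simp

/-- Comparison for all radii up to `L` gives monotonicity along rays up to `L`. -/
theorem ray_mono {L : ℝ} (hP : ∀ l, 0 < l → l < L → Above a u l) {x : EuclideanSpace ℝ (Fin n)}
    (hx : ‖x‖ = 1) {r s : ℝ} (hr : 0 < r) (hrs : r ≤ s) (hsL : s ≤ L) :
    r ^ a * u (r • x) ≤ s ^ a * u (s • x) := by
  have hs := hr.trans_le hrs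
  rcases hrs.eq_or_lt with rfl | hlt
  · rfl
  have hl : 0 < √(r * s) := sqrt_pos.2 (mul_pos hr hs)
  have hls : √(r * s) < s := by
    rw [sqrt_lt' hs, sq]
    exact mul_lt_mul_of_pos_right hlt hs
  have hnx : ‖s • x‖ = s := by rw [norm_smul, hx, mul_one, Real.norm_eq_abs, abs_of_pos hs]
  have h := hP _ hl (hls.trans_le hsL) (s • x) (by rw [hnx]; exact hls.le)
  rw [refl, hnx, invp_smul hx hs, sq_sqrt (mul_pos hr hs).le, mul_div_assoc, div_self hs.ne',
    mul_one] at h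
  have e : (√(r * s) / s) ^ (2 * a) = r ^ a / s ^ a := by
    rw [rpow_mul (by positivity), rpow_two, div_pow, sq_sqrt (mul_pos hr hs).le,
      show r * s / s ^ 2 = r / s by field_simp, div_rpow hr.le hs.le]
  rw [e, div_mul_eq_mul_div, div_le_iff₀ (rpow_pos_of_pos hs a), mul_comm (u (s • x))] at h
  exact h

theorem rayD_nonneg (hu2 : ∀ x, x ≠ 0 → ContDiffAt ℝ 2 u x) {L : ℝ}
    (hP : ∀ l, 0 < l → l < L → Above a u l) {y : EuclideanSpace ℝ (Fin n)} (hy : y ≠ 0)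
    (hyL : ‖y‖ < L) : 0 ≤ rayD a u y := by
  have hr : 0 < ‖y‖ := norm_pos_iff.2 hy
  set x := ‖y‖⁻¹ • y with hxd
  have hx : ‖x‖ = 1 := norm_smul_inv_norm hy
  have hxy : ‖y‖ • x = y := by rw [hxd, smul_smul, mul_inv_cancel₀ hr.ne', one_smul]
  have hd := hasDerivAt_ray a (u := u) (x := x) hr
    ((hu2 _ (by rw [hxy]; exact hy)).differentiableAt (by norm_num))
  rw [hxy] at hd
  have hmono : MonotoneOn (fun t : ℝ => t ^ a * u (t • x)) (Ioc 0 L) :=
    fun r hr s hs hrs => ray_mono hP hx hr.1 hrs hs.2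
  have h := hmono.derivWithin_nonneg (x := ‖y‖)
  rw [derivWithin_of_mem_nhds (Ioc_mem_nhds hr hyL), hd.deriv] at h
  exact nonneg_of_mul_nonneg_right h (rpow_pos_of_pos hr _)

theorem above_of_ray (hu2 : ∀ x, x ≠ 0 → ContDiffAt ℝ 2 u x) {L : ℝ}
    (hU : ∀ y, y ≠ 0 → ‖y‖ < L → 0 ≤ rayD a u y) {l : ℝ} (hl : 0 < l)
    {x : EuclideanSpace ℝ (Fin n)} (hlx : l ≤ ‖x‖) (hxL : ‖x‖ < L) : refl a u l x ≤ u x := by
  have hx0 : x ≠ 0 := norm_pos_iff.1 (hl.trans_le hlx)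
  have hs : 0 < ‖x‖ := norm_pos_iff.2 hx0
  set θ := ‖x‖⁻¹ • x with hθd
  have hθ : ‖θ‖ = 1 := norm_smul_inv_norm hx0
  have hxθ : ‖x‖ • θ = x := by rw [hθd, smul_smul, mul_inv_cancel₀ hs.ne', one_smul]
  have hr : 0 < l ^ 2 / ‖x‖ := by positivity
  have hrs : l ^ 2 / ‖x‖ ≤ ‖x‖ := by
    rw [div_le_iff₀ hs, sq]; exact mul_le_mul hlx hlx hl.le hs.le
  have hd : ∀ t, 0 < t → HasDerivAt (fun t : ℝ => t ^ a * u (t • θ))
      (t ^ (a - 1) * rayD a u (t • θ)) t := fun t ht => hasDerivAt_ray a ht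
    ((hu2 _ (norm_pos_iff.1 (by simpa [norm_smul, hθ] using ht.ne'))).differentiableAt
      (by norm_num))
  have hmono : MonotoneOn (fun t : ℝ => t ^ a * u (t • θ)) (Ioo 0 L) := by
    refine monotoneOn_of_deriv_nonneg (convex_Ioo 0 L)
      (fun t ht => (hd t ht.1).continuousAt.continuousWithinAt)
      (fun t ht => (hd t (interior_subset ht).1).differentiableAt.differentiableWithinAt)
      fun t ht => ?_
    rw [interior_Ioo] at ht
    rw [(hd t ht.1).deriv]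
    have hn : ‖t • θ‖ = t := by rw [norm_smul, hθ, mul_one, Real.norm_eq_abs, abs_of_pos ht.1]
    exact mul_nonneg (rpow_nonneg ht.1.le _)
      (hU _ (norm_pos_iff.1 (hn.symm ▸ ht.1)) (hn.symm ▸ ht.2))
  have h : (l ^ 2 / ‖x‖) ^ a * u ((l ^ 2 / ‖x‖) • θ) ≤ ‖x‖ ^ a * u (‖x‖ • θ) :=
    hmono ⟨hr, hrs.trans_lt hxL⟩ ⟨hs, hxL⟩ hrs
  rw [hxθ] at h
  have e1 : invp l x = (l ^ 2 / ‖x‖) • θ := by rw [← invp_smul hθ hs, hxθ]
  have e2 : (l / ‖x‖) ^ (2 * a) = (l ^ 2 / ‖x‖) ^ a / ‖x‖ ^ a := by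
    rw [← div_rpow hr.le hs.le, rpow_mul (by positivity), rpow_two]
    congr 1
    field_simp
  rw [refl, e1, e2, div_mul_eq_mul_div, div_le_iff₀ (rpow_pos_of_pos hs a), mul_comm (u x)]
  exact h

theorem continuousAt_rayD (a : ℝ) (hu2 : ∀ x, x ≠ 0 → ContDiffAt ℝ 2 u x)
    {x : EuclideanSpace ℝ (Fin n)} (hx : x ≠ 0) : ContinuousAt (rayD a u) x :=
  (((hu2 x hx).continuousAt).const_mul a).add
    (((hu2 x hx).continuousAt_fderiv (by norm_num)).clm_apply continuousAt_id)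

/-- A function that is positive and continuous has the decay of the fundamental solution at
most. -/
theorem decay_ge (hn : 3 ≤ n) (hu : Continuous u) (hu2 : ∀ x, x ≠ 0 → ContDiffAt ℝ 2 u x)
    (hpos : ∀ x, 0 < u x) (hlap : ∀ x, x ≠ 0 → Δ u x < 0) {ρ : ℝ} (hρ : 0 < ρ) :
    ∃ c, 0 < c ∧ ∀ x, ρ ≤ ‖x‖ → c * (ρ / ‖x‖) ^ ((n : ℝ) - 2) ≤ u x := by
  obtain ⟨z, -, hz⟩ := (isCompact_closedBall (0 : EuclideanSpace ℝ (Fin n)) ρ).exists_isMinOn
    ⟨0, by simp [hρ.le]⟩ hu.continuousOn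
  refine ⟨u z, hpos z, fun x hx => exterior_ge hn hρ
    (fun y hy => hu2 y (norm_pos_iff.1 (hρ.trans_le hy)))
    (fun y hy => hlap y (norm_pos_iff.1 (hρ.trans hy)))
    (fun y hy => hz (by rw [mem_closedBall_zero_iff, hy])) (fun δ hδ => ⟨0, fun y _ => ?_⟩) hx⟩
  linarith [hpos y]

/-- The lower barrier for the difference with the Kelvin transform next to a small sphere. -/
theorem kelvin_barrier (hn : 3 ≤ n) {A p l γ W : ℝ} (hp : 0 < p) (hA : -2 < A) (hl : 0 < l)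
    {u v : EuclideanSpace ℝ (Fin n) → ℝ} (hu2 : ∀ x, x ≠ 0 → ContDiffAt ℝ 2 u x)
    (hup : ∀ x, 0 < u x) (hvp : ∀ x, 0 < v x)
    (heq : ∀ x, x ≠ 0 → -(Δ u x) = ‖x‖ ^ A * v x ^ p)
    (hW : ∀ z, ‖z‖ ≤ l → v z ≤ W) (hγ : 0 ≤ γ)
    (hlK : ((1 / 2 : ℝ) ^ A + 1) * W ^ p * l ^ (2 + A) <
      γ * (((n : ℝ) - 2) / 2) * ((((n : ℝ) - 2) / 2) * (2 : ℝ) ^ (-((((n : ℝ) - 2) / 2) + 2))))
    (two : ∀ z : EuclideanSpace ℝ (Fin n), ‖z‖ = 2 * l →
      γ ≤ u z - refl (((n : ℝ) - 2) / 2) u l z)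
    {x : EuclideanSpace ℝ (Fin n)} (hx : l ≤ ‖x‖) (hclose : ‖x‖ < 2 * l) :
    refl (((n : ℝ) - 2) / 2) u l x ≤ u x := by
  set N : ℝ := (n : ℝ) - 2 with hN
  have hN1 : (1 : ℝ) ≤ N := by
    have : (3 : ℝ) ≤ n := by exact_mod_cast hn
    linarith
  set m : ℝ := N / 2 with hm
  have hm0 : 0 < m := by positivity
  have hlap : ∀ x, x ≠ 0 → Δ u x < 0 := fun x hx => by
    have := mul_pos (rpow_pos_of_pos (norm_pos_iff.2 hx) A) (rpow_pos_of_pos (hvp x) p)
    linarith [heq x hx]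
  set K := ((1 / 2 : ℝ) ^ A + 1) * W ^ p
  set L₀ := γ * m * (m * (2 : ℝ) ^ (-(m + 2)))
  have hxp : 0 < ‖x‖ := hl.trans_le hx
  -- the annulus next to the sphere
  set w : EuclideanSpace ℝ (Fin n) → ℝ := fun z => u z - refl (N / 2) u l z with hw
  obtain ⟨h1, h2, h3⟩ := power_data (n := n) m γ (-(γ * l ^ m))
  have hw2 : ∀ z : EuclideanSpace ℝ (Fin n), l ≤ ‖z‖ → ContDiffAt ℝ 2 w z := fun z hz =>
    have hz0 := norm_pos_iff.1 (hl.trans_le hz)
    (hu2 z hz0).sub (laplacian_refl hl hz0 (hu2 _ (invp_ne hl hz0))).1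
  have h := annulus_ge (ρ := 2 * l) hl (fun z hz _ => hw2 z hz) h1 h2 (fun z hz hz' => ?_)
    (fun z hz => ?_) (fun z hz => ?_) hx hclose.le
  · have h4 : l ^ m * ‖x‖ ^ (-m) ≤ 1 := by
      rw [rpow_neg hxp.le, ← div_eq_mul_inv, div_le_one (rpow_pos_of_pos hxp m)]
      exact rpow_le_rpow hl.le hx hm0.le
    rw [pow_two_rpow hxp.le] at h
    have := mul_le_mul_of_nonneg_left h4 (show 0 ≤ γ by positivity)
    simp only [hw] at h
    linarith
  · have hzp : 0 < ‖z‖ := hl.trans hz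
    have hz0 := norm_pos_iff.1 hzp
    set y := invp l z with hyd
    have hy0 : y ≠ 0 := invp_ne hl hz0
    obtain ⟨hK2, hKl⟩ := laplacian_refl (a := N / 2) hl hz0 (hu2 _ hy0)
    rw [h3 _ hzp]
    have hsub : Δ w z = Δ u z - Δ (refl (N / 2) u l) z :=
      (hu2 z hz0).laplacian_sub hK2
    rw [hsub, hKl, show 2 * (N / 2) + 2 - (n : ℝ) = 0 by rw [hN]; ring]
    have hyn : ‖y‖ = l ^ 2 / ‖z‖ := norm_invp hl hz0
    have hy1 : l / 2 ≤ ‖y‖ := by rw [hyn, le_div_iff₀ hzp]; nlinarith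
    have hy2 : ‖y‖ ≤ l := by rw [hyn, div_le_iff₀ hzp]; nlinarith
    have hvy : v y ^ p ≤ W ^ p := rpow_le_rpow (hvp y).le
      (hW _ hy2) hp.le
    have hyA : ‖y‖ ^ A ≤ ((1 / 2 : ℝ) ^ A + 1) * l ^ A := by
      have hl2 : (0 : ℝ) ≤ (1 / 2 : ℝ) ^ A := rpow_nonneg (by norm_num) A
      rcases le_or_gt 0 A with hA0 | hA0
      · have := rpow_le_rpow (norm_nonneg y) hy2 hA0
        nlinarith [rpow_nonneg hl.le A]
      · have := rpow_le_rpow_of_nonpos (half_pos hl) hy1 hA0.le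
        rw [show l / 2 = 1 / 2 * l by ring, mul_rpow (by norm_num) hl.le] at this
        nlinarith [rpow_nonneg hl.le A]
    have hbound : -Δ u y ≤ K * l ^ A := by
      rw [heq y hy0]
      calc ‖y‖ ^ A * v y ^ p ≤ ((1 / 2 : ℝ) ^ A + 1) * l ^ A * W ^ p :=
            mul_le_mul hyA hvy (rpow_nonneg (hvp y).le p)
              ((rpow_nonneg (norm_nonneg y) A).trans hyA)
        _ = _ := by ring
    have hfac : (l / ‖z‖) ^ (2 * (N / 2)) * (l ^ 2 / ‖z‖ ^ 2) ^ 2 ≤ 1 := by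
      refine mul_le_one₀ (rpow_le_one (by positivity) ((div_le_one hzp).2 hz.le) (by linarith))
        (by positivity) (pow_le_one₀ (by positivity) ((div_le_one (by positivity)).2 ?_))
      exact pow_le_pow_left₀ hl.le hz.le 2
    have hA2 : L₀ * l ^ (-(2 : ℝ)) ≤ -(γ * l ^ m) * m * (m + 2 - n) * ‖z‖ ^ (-m - 2) := by
      have e : m + 2 - (n : ℝ) = -m := by rw [hm, hN]; ring
      rw [e, show -(γ * l ^ m) * m * -m * ‖z‖ ^ (-m - 2) =
        γ * m * m * (l ^ m * ‖z‖ ^ (-m - 2)) by ring]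
      have h5 : (2 * l) ^ (-(m + 2)) ≤ ‖z‖ ^ (-(m + 2)) :=
        rpow_le_rpow_of_nonpos hzp hz'.le (by linarith)
      rw [show -m - 2 = -(m + 2) by ring]
      refine le_trans (le_of_eq ?_) (mul_le_mul_of_nonneg_left
        (mul_le_mul_of_nonneg_left h5 (rpow_nonneg hl.le m)) (by positivity))
      rw [mul_rpow two_pos.le hl.le, ← mul_assoc (l ^ m), mul_comm (l ^ m), mul_assoc (_ : ℝ) (l ^ m),
        ← rpow_add hl, show m + -(m + 2) = -(2 : ℝ) by ring]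
      simp only [L₀]
      ring
    have hA3 : K * l ^ A < L₀ * l ^ (-(2 : ℝ)) := by
      rw [rpow_neg hl.le, ← div_eq_mul_inv, lt_div_iff₀ (rpow_pos_of_pos hl 2), mul_assoc,
        ← rpow_add hl, add_comm]
      exact hlK
    have h6 : 0 ≤ -Δ u y := by linarith [hlap y hy0]
    have h7 := mul_le_mul_of_nonneg_right hfac h6
    have := hlap z hz0
    linarith
  · rw [pow_two_rpow hl.le, neg_mul, mul_assoc, ← rpow_add hl, add_neg_cancel, rpow_zero]
    simp only [hw, refl_self hl hz]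
    linarith
  · rw [pow_two_rpow (by positivity)]
    have h4 : (0 : ℝ) ≤ γ * l ^ m * (2 * l) ^ (-m) := by positivity
    have := two z hz
    simp only [hw]
    linarith

/-- For small radii the comparison holds, by a barrier for the Kelvin transform. -/
theorem above_small (hn : 3 ≤ n) {A p : ℝ} (hp : 0 < p) (hA : -2 < A)
    (ha : (n : ℝ) - 2 ≤ 2 * a) {u v : EuclideanSpace ℝ (Fin n) → ℝ}
    (hu : Continuous u) (hv : Continuous v) (hu2 : ∀ x, x ≠ 0 → ContDiffAt ℝ 2 u x)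
    (hup : ∀ x, 0 < u x) (hvp : ∀ x, 0 < v x)
    (heq : ∀ x, x ≠ 0 → -(Δ u x) = ‖x‖ ^ A * v x ^ p) :
    ∃ δ : ℝ, 0 < δ ∧ ∀ l, 0 < l → l < δ → Above a u l := by
  set N : ℝ := (n : ℝ) - 2 with hN
  have hN1 : (1 : ℝ) ≤ N := by
    have : (3 : ℝ) ≤ n := by exact_mod_cast hn
    linarith
  have hlap : ∀ x, x ≠ 0 → Δ u x < 0 := fun x hx => by
    have := mul_pos (rpow_pos_of_pos (norm_pos_iff.2 hx) A) (rpow_pos_of_pos (hvp x) p)
    linarith [heq x hx]
  have hu0 := hup 0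
  obtain ⟨R₀, hR₀, hball⟩ := Metric.continuousAt_iff.1 hu.continuousAt (u 0 / 10) (by positivity)
  have hnear : ∀ x : EuclideanSpace ℝ (Fin n), ‖x‖ < R₀ →
      9 / 10 * u 0 ≤ u x ∧ u x ≤ 11 / 10 * u 0 := fun x hx => by
    have := abs_lt.1 (by simpa [Real.dist_eq] using hball (by rwa [dist_zero_right]))
    constructor <;> linarith
  obtain ⟨c, hc, hdec⟩ := decay_ge hn hu hu2 hup hlap (half_pos hR₀)
  obtain ⟨W, hW⟩ := (isCompact_closedBall (0 : EuclideanSpace ℝ (Fin n)) 1).bddAbove_image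
    hv.continuousOn
  have hW0 : 0 ≤ W := (hvp 0).le.trans (hW (mem_image_of_mem _ (by simp)))
  set m : ℝ := N / 2 with hm
  set γ : ℝ := 7 / 20 * u 0 with hγ
  -- the conditions on the radius
  have hT : Tendsto (fun l : ℝ => l ^ (2 + A)) (𝓝[>] 0) (𝓝 0) := by
    have := (Real.continuous_rpow_const (show (0 : ℝ) ≤ 2 + A by linarith)).tendsto 0
    rw [zero_rpow (by linarith)] at this
    exact this.mono_left nhdsWithin_le_nhds
  have hT' : Tendsto (fun l : ℝ => l ^ N) (𝓝[>] 0) (𝓝 0) := by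
    have := (Real.continuous_rpow_const (show (0 : ℝ) ≤ N by linarith)).tendsto 0
    rw [zero_rpow (by linarith)] at this
    exact this.mono_left nhdsWithin_le_nhds
  set K := ((1 / 2 : ℝ) ^ A + 1) * W ^ p
  have hK : 0 ≤ K := by positivity
  set L₀ := γ * m * (m * (2 : ℝ) ^ (-(m + 2)))
  have hm0 : 0 < m := by positivity
  have hL₀ : 0 < L₀ := by positivity
  have ev : ∀ᶠ l in 𝓝[>] (0 : ℝ), l < R₀ / 4 ∧ l < 1 ∧ K * l ^ (2 + A) < L₀ ∧
      11 / 10 * u 0 * l ^ N < c * (R₀ / 2) ^ N := by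
    refine eventually_and.2 ⟨?_, eventually_and.2 ⟨?_, eventually_and.2 ⟨?_, ?_⟩⟩⟩
    · exact nhdsWithin_le_nhds (eventually_lt_nhds (by positivity))
    · exact nhdsWithin_le_nhds (eventually_lt_nhds one_pos)
    · exact (hT.const_mul K).eventually (eventually_lt_nhds (by simpa using hL₀))
    · exact (hT'.const_mul _).eventually (eventually_lt_nhds
        (by simp only [mul_zero]; positivity))
  obtain ⟨δ, hδ, hev⟩ := mem_nhdsGT_iff_exists_Ioo_subset.1 ev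
  refine ⟨δ, hδ, fun l hl hlδ x hx => ?_⟩
  obtain ⟨hl4, hl1, hlK, hlN⟩ := hev ⟨hl, hlδ⟩
  -- it is enough to compare with the Kelvin transform
  have hxp : 0 < ‖x‖ := hl.trans_le hx
  have hx0 : x ≠ 0 := norm_pos_iff.1 hxp
  have hlow : refl a u l x ≤ refl (N / 2) u l x := by
    refine mul_le_mul_of_nonneg_right (rpow_le_rpow_of_exponent_ge (by positivity)
      ((div_le_one hxp).2 hx) (by linarith)) (hup _).le
  refine hlow.trans ?_
  have e2 : 2 * (N / 2) = N := by ring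
  have hy : u (invp l x) ≤ 11 / 10 * u 0 := by
    refine (hnear _ ?_).2
    rw [norm_invp hl hx0, div_lt_iff₀ hxp]
    nlinarith
  rcases le_or_gt (R₀ / 2) ‖x‖ with hfar | hnr
  · refine le_trans ?_ (hdec x hfar)
    rw [refl, e2, div_rpow hl.le hxp.le, div_rpow (half_pos hR₀).le hxp.le, ← mul_div_assoc,
      div_mul_eq_mul_div, div_le_div_iff_of_pos_right (rpow_pos_of_pos hxp N)]
    calc l ^ N * u (invp l x) ≤ l ^ N * (11 / 10 * u 0) := by gcongr
      _ ≤ _ := by linarith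
  have two : ∀ z : EuclideanSpace ℝ (Fin n), 2 * l ≤ ‖z‖ → ‖z‖ < R₀ →
      u (invp l z) ≤ 11 / 10 * u 0 → γ ≤ u z - refl (N / 2) u l z := by
    intro z hz hzR hzy
    have hzp : 0 < ‖z‖ := by linarith
    have hq : (l / ‖z‖) ^ (2 * (N / 2)) ≤ 1 / 2 := by
      rw [e2]
      calc (l / ‖z‖) ^ N ≤ (1 / 2 : ℝ) ^ N := by
            refine rpow_le_rpow (by positivity) ?_ (by linarith)
            rw [div_le_iff₀ hzp]; linarith
        _ ≤ (1 / 2 : ℝ) ^ (1 : ℝ) := rpow_le_rpow_of_exponent_ge (by norm_num) (by norm_num) hN1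
        _ = 1 / 2 := rpow_one _
    have := (hnear z hzR).1
    have h2 : refl (N / 2) u l z ≤ 1 / 2 * (11 / 10 * u 0) :=
      mul_le_mul hq hzy (hup _).le (by norm_num)
    rw [hγ]
    linarith
  rcases le_or_gt (2 * l) ‖x‖ with hmid | hclose
  · have := two x hmid (by linarith) hy
    linarith
  exact kelvin_barrier (W := W) hn hp hA hl hu2 hup hvp heq
    (fun z hz => hW (mem_image_of_mem _ (by rw [mem_closedBall_zero_iff]; linarith)))
    (show (0 : ℝ) ≤ γ by positivity) hlK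
    (fun z hz => two z hz.ge (by linarith) (by
      refine (hnear _ ?_).2
      rw [norm_invp hl (norm_pos_iff.1 (by linarith)), hz, div_lt_iff₀ (by positivity)]
      nlinarith)) hx hclose

theorem tendsto_refl (hn : 3 ≤ n) (ha : (n : ℝ) - 2 ≤ 2 * a) (hu : Continuous u) {l : ℝ}
    (hl : 0 < l) (δ : ℝ) (hδ : 0 < δ) :
    ∃ R, ∀ x : EuclideanSpace ℝ (Fin n), R ≤ ‖x‖ → refl a u l x ≤ δ := by
  obtain ⟨M, hM⟩ := (isCompact_closedBall (0 : EuclideanSpace ℝ (Fin n)) l).bddAbove_image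
    hu.continuousOn
  have hn3 : (3 : ℝ) ≤ n := by exact_mod_cast hn
  have ha0 : 0 < 2 * a := by linarith
  have h := ((tendsto_rpow_neg_atTop ha0).const_mul (max M 0 * l ^ (2 * a))).eventually
    (eventually_le_nhds (show max M 0 * l ^ (2 * a) * 0 < δ by simpa using hδ))
  obtain ⟨R, hR⟩ := eventually_atTop.1 h
  refine ⟨max R l, fun x hx => ?_⟩
  have hxl : l ≤ ‖x‖ := (le_max_right _ _).trans hx
  have hxp : 0 < ‖x‖ := hl.trans_le hxl
  refine le_trans ?_ (hR ‖x‖ ((le_max_left _ _).trans hx))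
  have hy : u (invp l x) ≤ max M 0 := le_max_of_le_left (hM (mem_image_of_mem _ (by
    rw [mem_closedBall_zero_iff, norm_invp hl (norm_pos_iff.1 hxp), div_le_iff₀ hxp]
    nlinarith)))
  rw [refl, div_rpow hl.le hxp.le, rpow_neg hxp.le, mul_assoc, ← div_eq_mul_inv,
    mul_comm (max M 0)]
  exact mul_le_mul_of_nonneg_left hy (by positivity)

/-- At a radius up to which the comparison holds, it is strict with uniform margins. -/
theorem strict_at (hn : 3 ≤ n) {A b p L : ℝ} (hp : 0 < p) (hL : 0 < L)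
    (ha : (n : ℝ) - 2 ≤ 2 * a) {u v : EuclideanSpace ℝ (Fin n) → ℝ}
    (hu : Continuous u) (hu2 : ∀ x, x ≠ 0 → ContDiffAt ℝ 2 u x)
    (hup : ∀ x, 0 < u x) (hvp : ∀ x, 0 < v x)
    (heq : ∀ x, x ≠ 0 → -(Δ u x) = ‖x‖ ^ A * v x ^ p)
    (hP : ∀ l, 0 < l → l < L → Above a u l) (hv : Above b v L)
    (he : p * b ≤ 2 + A + a)
    (hs : p * b < 2 + A + a ∨ ∀ x, L < ‖x‖ → refl b v L x < v x) :
    (∀ x, L < ‖x‖ → refl a u L x < u x) ∧ (∀ x, ‖x‖ = L → 0 < rayD a u x) ∧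
      ∀ r, L < r → ∃ c, 0 < c ∧ ∀ x, r ≤ ‖x‖ →
        c * (r / ‖x‖) ^ ((n : ℝ) - 2) ≤ u x - refl a u L x := by
  set N : ℝ := (n : ℝ) - 2 with hN
  have hN0 : 0 < N := by
    have : (3 : ℝ) ≤ n := by exact_mod_cast hn
    linarith
  set w : EuclideanSpace ℝ (Fin n) → ℝ := fun z => u z - refl a u L z with hw
  have hw2 : ∀ z : EuclideanSpace ℝ (Fin n), L ≤ ‖z‖ → ContDiffAt ℝ 2 w z := fun z hz =>
    have hz0 := norm_pos_iff.1 (hL.trans_le hz)
    (hu2 z hz0).sub (laplacian_refl hL hz0 (hu2 _ (invp_ne hL hz0))).1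
  have hlap : ∀ z : EuclideanSpace ℝ (Fin n), L < ‖z‖ → Δ w z < 0 := by
    intro z hz
    have hzp := hL.trans hz
    have hz0 := norm_pos_iff.1 hzp
    set y := invp L z with hyd
    have hy0 : y ≠ 0 := invp_ne hL hz0
    obtain ⟨hK2, hKl⟩ := laplacian_refl (a := a) hL hz0 (hu2 _ hy0)
    rw [show Δ w z = Δ u z - Δ (refl a u L) z from (hu2 z hz0).laplacian_sub hK2, hKl]
    have hyn : ‖y‖ = L ^ 2 / ‖z‖ := norm_invp hL hz0
    have hyL : ‖y‖ < L := by rw [hyn, div_lt_iff₀ hzp]; nlinarith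
    have hU : 0 ≤ a * u y + fderiv ℝ u y y := rayD_nonneg hu2 hP hy0 hyL
    set ρ := L / ‖z‖ with hρ
    have hρ0 : 0 < ρ := div_pos hL hzp
    have hρ1 : ρ < 1 := (div_lt_one hzp).2 hz
    have hyρ : ‖y‖ = ρ ^ 2 * ‖z‖ := by rw [hyn, hρ]; field_simp
    have hsrc : ρ ^ (2 * a) * (L ^ 2 / ‖z‖ ^ 2) ^ 2 * (‖y‖ ^ A * v y ^ p) =
        ρ ^ (2 * (2 + A + a - p * b)) * (‖z‖ ^ A * refl b v L z ^ p) := by
      rw [show L ^ 2 / ‖z‖ ^ 2 = ρ ^ 2 by rw [hρ, div_pow], hyρ,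
        mul_rpow (by positivity) hzp.le, refl, ← hρ, ← hyd,
        mul_rpow (rpow_nonneg hρ0.le _) (hvp y).le, ← rpow_mul hρ0.le, ← rpow_natCast ρ 2,
        ← rpow_mul hρ0.le, ← rpow_natCast (ρ ^ ((2 : ℕ) : ℝ)) 2, ← rpow_mul hρ0.le]
      rw [show 2 * (2 + A + a - p * b) = 2 * a + ((2 : ℕ) : ℝ) * ((2 : ℕ) : ℝ) + ((2 : ℕ) : ℝ) * A -
        2 * b * p by push_cast; ring]
      rw [rpow_sub hρ0, rpow_add hρ0, rpow_add hρ0]
      field_simp
    have h1 : 0 ≤ ρ ^ (2 * a) / ‖z‖ ^ 2 * (2 * (2 * a + 2 - n) * (a * u y + fderiv ℝ u y y)) :=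
      mul_nonneg (by positivity) (mul_nonneg (by linarith) hU)
    have hZ : 0 < ‖z‖ ^ A := rpow_pos_of_pos hzp A
    have hrv : 0 < refl b v L z := mul_pos (rpow_pos_of_pos hρ0 _) (hvp y)
    have h2 : ρ ^ (2 * (2 + A + a - p * b)) * (‖z‖ ^ A * refl b v L z ^ p) <
        ‖z‖ ^ A * v z ^ p := by
      rcases hs with hs | hs
      · refine lt_of_lt_of_le (mul_lt_of_lt_one_left (mul_pos hZ (rpow_pos_of_pos hrv p))
          (rpow_lt_one hρ0.le hρ1 (by linarith))) ?_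
        exact mul_le_mul_of_nonneg_left (rpow_le_rpow hrv.le (hv z hz.le) hp.le) hZ.le
      · refine lt_of_le_of_lt (mul_le_of_le_one_left (mul_pos hZ (rpow_pos_of_pos hrv p)).le
          (rpow_le_one hρ0.le hρ1.le (by linarith))) ?_
        exact mul_lt_mul_of_pos_left (rpow_lt_rpow hrv.le (hs z hz) hp) hZ
    rw [← hρ] at *
    have h3 := heq z hz0
    have h4 : Δ u y = -(‖y‖ ^ A * v y ^ p) := by linarith [heq y hy0]
    rw [h4]
    linarith
  have hinf : ∀ δ : ℝ, 0 < δ → ∃ R, ∀ z, R ≤ ‖z‖ → -δ ≤ w z := fun δ hδ => by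
    obtain ⟨R, hR⟩ := tendsto_refl hn ha hu hL δ hδ
    exact ⟨R, fun z hz => by simp only [hw]; linarith [hR z hz, hup z]⟩
  have hge : ∀ z : EuclideanSpace ℝ (Fin n), L ≤ ‖z‖ → 0 ≤ w z := fun z hz => by
    simpa using exterior_ge (c := 0) hn hL hw2 hlap
      (fun y hy => by simp [hw, refl_self hL hy]) hinf hz
  have hpos : ∀ z : EuclideanSpace ℝ (Fin n), L < ‖z‖ → 0 < w z := by
    intro z hz
    refine lt_of_le_of_ne (hge z hz.le) fun h0 => ?_
    have hloc : IsLocalMin (fun y => w y - (0 : ℝ)) z := by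
      filter_upwards [(isOpen_Ioi.preimage continuous_norm).mem_nhds (show z ∈ norm ⁻¹' Ioi L
        from hz)] with y hy
      have := hge y (le_of_lt hy)
      simp only [sub_zero]
      linarith
    have := laplacian_ge_radial (φ := fun _ => 0) (d1 := fun _ => 0) (d2 := 0) (hw2 z hz.le)
      (Eventually.of_forall fun s => hasDerivAt_const s 0) (hasDerivAt_const _ 0) hloc
    have := hlap z hz
    simp at *
    linarith
  have hmin : ∀ r, L < r → ∃ c, 0 < c ∧ ∀ z : EuclideanSpace ℝ (Fin n), ‖z‖ = r → c ≤ w z := by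
    intro r hr
    have : Nonempty (Fin n) := ⟨⟨0, by omega⟩⟩
    obtain ⟨z, hz, hzm⟩ := (isCompact_sphere (0 : EuclideanSpace ℝ (Fin n)) r).exists_isMinOn
      (NormedSpace.sphere_nonempty.2 (hL.trans hr).le) (fun y hy =>
        (hw2 y (by rw [mem_sphere_zero_iff_norm] at hy; linarith)).continuousAt.continuousWithinAt)
    rw [mem_sphere_zero_iff_norm] at hz
    exact ⟨w z, hpos z (hz ▸ hr), fun y hy => hzm (by rwa [mem_sphere_zero_iff_norm])⟩
  refine ⟨fun z hz => by linarith [hpos z hz], fun z hz => ?_, fun r hr => ?_⟩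
  · obtain ⟨c, hc, hcw⟩ := hmin (2 * L) (by linarith)
    obtain ⟨h1, h2, h3⟩ := power_data (n := n) N c (-(c * L ^ N))
    have hbar : ∀ y : EuclideanSpace ℝ (Fin n), L ≤ ‖y‖ → ‖y‖ ≤ 2 * L →
        c + -(c * L ^ N) * (‖y‖ ^ 2) ^ (-N / 2) ≤ w y := by
      intro y hy hy'
      refine annulus_ge hL (fun y hy _ => hw2 y hy) h1 h2 (fun y hy _ => ?_) (fun y hy => ?_)
        (fun y hy => ?_) hy hy'
      · rw [h3 _ (hL.trans hy), show N + 2 - (n : ℝ) = 0 by rw [hN]; ring, mul_zero, zero_mul]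
        exact hlap y hy
      · rw [pow_two_rpow hL.le, neg_mul, mul_assoc, ← rpow_add hL, add_neg_cancel, rpow_zero]
        simp [hw, refl_self hL hy]
      · rw [pow_two_rpow (by positivity)]
        have : 0 ≤ c * L ^ N * (2 * L) ^ (-N) := by positivity
        linarith [hcw y hy]
    set θ := L⁻¹ • z with hθd
    have hθ : ‖θ‖ = 1 := by rw [hθd, norm_smul, hz, norm_inv, Real.norm_eq_abs, abs_of_pos hL,
      inv_mul_cancel₀ hL.ne']
    have hθz : L • θ = z := by rw [hθd, smul_smul, mul_inv_cancel₀ hL.ne', one_smul]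
    have hne : z ≠ 0 := norm_pos_iff.1 (hz ▸ hL)
    set f : ℝ → ℝ := fun t =>
      u (t • θ) - (L / t) ^ (2 * a) * u ((L ^ 2 / t) • θ) - (c - c * L ^ N * t ^ (-N)) with hf
    have hfd : HasDerivAt f (2 / L * rayD a u z - c * N / L) L := by
      have hud : HasFDerivAt u (fderiv ℝ u z) z :=
        ((hu2 z hne).differentiableAt (by norm_num)).hasFDerivAt
      have g1 : HasDerivAt (fun t : ℝ => u (t • θ)) (fderiv ℝ u z θ) L :=
        hud.comp_hasDerivAt_of_eq L (by simpa using (hasDerivAt_id L).smul_const θ) hθz.symm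
      have g2 : HasDerivAt (fun t : ℝ => L ^ 2 / t) (-1) L :=
        ((hasDerivAt_const L (L ^ 2)).div (hasDerivAt_id L) hL.ne').congr_deriv (by
          simp only [id_eq]; field_simp; ring)
      have g3 : HasDerivAt (fun t : ℝ => u ((L ^ 2 / t) • θ)) (fderiv ℝ u z ((-1 : ℝ) • θ)) L :=
        hud.comp_hasDerivAt_of_eq L (g2.smul_const θ) (by
          rw [show L ^ 2 / L = L by field_simp, hθz])
      have g4 : HasDerivAt (fun t : ℝ => (L / t) ^ (2 * a)) (-(2 * a) / L) L :=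
        (((hasDerivAt_const L L).div (hasDerivAt_id L) hL.ne').rpow_const
          (Or.inl (by simp [hL.ne']))).congr_deriv (by
            simp only [id_eq, Pi.div_apply, div_self hL.ne', one_rpow]; field_simp; ring)
      have g5 : HasDerivAt (fun t : ℝ => c - c * L ^ N * t ^ (-N)) (c * N / L) L :=
        ((hasDerivAt_pw (c * L ^ N) (-N) L hL).const_sub c).congr_deriv (by
          rw [rpow_sub_one hL.ne', rpow_neg hL.le]; field_simp)
      refine ((g1.sub (g4.mul g3)).sub g5).congr_deriv ?_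
      have hDz : fderiv ℝ u z z = L * fderiv ℝ u z θ := by
        conv_lhs => arg 2; rw [← hθz]
        rw [map_smul, smul_eq_mul]
      simp only [rayD, hDz, map_smul, smul_eq_mul, div_self hL.ne', one_rpow,
        show L ^ 2 / L = L by field_simp, hθz]
      field_simp
      ring
    have hf0 : f L = 0 := by
      simp only [hf, div_self hL.ne', one_rpow, show L ^ 2 / L = L by field_simp,
        mul_assoc, ← rpow_add hL, add_neg_cancel, rpow_zero]
      ring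
    have hev : ∀ᶠ t in 𝓝[>] L, 0 ≤ slope f L t := by
      filter_upwards [Ioo_mem_nhdsGT (show L < 2 * L by linarith)] with t ht
      have htp : 0 < t := hL.trans ht.1
      have hn : ‖t • θ‖ = t := by rw [norm_smul, hθ, mul_one, Real.norm_eq_abs, abs_of_pos htp]
      have := hbar (t • θ) (by rw [hn]; exact ht.1.le) (by rw [hn]; exact ht.2.le)
      rw [hn, pow_two_rpow htp.le] at this
      simp only [hw, refl, hn, invp_smul hθ htp] at this
      rw [slope_def_field, hf0, sub_zero]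
      refine div_nonneg ?_ (by linarith [ht.1])
      simp only [hf]
      linarith
    have hnn : 0 ≤ 2 / L * rayD a u z - c * N / L :=
      ge_of_tendsto ((hasDerivAt_iff_tendsto_slope.1 hfd).mono_left
        (nhdsWithin_mono _ fun t (ht : t ∈ Ioi L) => ne_of_gt ht)) hev
    have : 0 < c * N / L := by positivity
    exact pos_of_mul_pos_right (show 0 < 2 / L * rayD a u z by linarith) (by positivity)
  · obtain ⟨c, hc, hcw⟩ := hmin r hr
    exact ⟨c, hc, fun z hz => exterior_ge hn (hL.trans hr) (fun y hy => hw2 y (hr.le.trans hy))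
      (fun y hy => hlap y (hr.trans hy)) hcw hinf hz⟩

/-- The margins at `L` persist for slightly larger radii. -/
theorem open_step (hn : 3 ≤ n) {L : ℝ} (hL : 0 < L) (ha : (n : ℝ) - 2 ≤ 2 * a)
    (hu : Continuous u) (hu2 : ∀ x, x ≠ 0 → ContDiffAt ℝ 2 u x)
    (hP : ∀ l, 0 < l → l < L → Above a u l)
    (hU : ∀ x, ‖x‖ = L → 0 < rayD a u x)
    (hfar : ∀ r, L < r → ∃ c, 0 < c ∧ ∀ x, r ≤ ‖x‖ →
      c * (r / ‖x‖) ^ ((n : ℝ) - 2) ≤ u x - refl a u L x) :
    ∃ δ : ℝ, 0 < δ ∧ ∀ l, L ≤ l → l < L + δ → Above a u l := by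
  set N : ℝ := (n : ℝ) - 2 with hN
  have hn3 : (3 : ℝ) ≤ n := by exact_mod_cast hn
  -- a band where the radial derivative stays positive
  obtain ⟨δ₁, hδ₁, hband⟩ : ∃ δ₁ : ℝ, 0 < δ₁ ∧
      ∀ y : EuclideanSpace ℝ (Fin n), y ≠ 0 → ‖y‖ < L + δ₁ → 0 ≤ rayD a u y := by
    have hK := isCompact_sphere (0 : EuclideanSpace ℝ (Fin n)) 1
    have hev : ∀ x ∈ sphere (0 : EuclideanSpace ℝ (Fin n)) 1,
        ∀ᶠ z : ℝ × EuclideanSpace ℝ (Fin n) in 𝓝 (L, x), 0 < rayD a u (z.1 • z.2) := by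
      intro x hx
      rw [mem_sphere_zero_iff_norm] at hx
      have hLx : ‖L • x‖ = L := by rw [norm_smul, hx, mul_one, Real.norm_eq_abs, abs_of_pos hL]
      have hc : ContinuousAt (fun z : ℝ × EuclideanSpace ℝ (Fin n) => rayD a u (z.1 • z.2))
          (L, x) :=
        ContinuousAt.comp (f := fun z : ℝ × EuclideanSpace ℝ (Fin n) => z.1 • z.2)
          (continuousAt_rayD a hu2 (norm_pos_iff.1 (hLx.symm ▸ hL))) (by fun_prop)
      exact hc.eventually (eventually_gt_nhds (hU _ hLx))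
    obtain ⟨η, hη, hball⟩ :=
      Metric.eventually_nhds_iff.1 (hK.eventually_forall_of_forall_eventually
        (P := fun t y => 0 < rayD a u (t • y)) hev)
    refine ⟨η, hη, fun y hy hyL => ?_⟩
    rcases lt_or_ge ‖y‖ L with h | h
    · exact rayD_nonneg hu2 hP hy h
    · have hp := norm_pos_iff.2 hy
      have := hball (y := ‖y‖) (by rw [Real.dist_eq, abs_lt]; constructor <;> linarith)
        (‖y‖⁻¹ • y) (by rw [mem_sphere_zero_iff_norm]; exact norm_smul_inv_norm hy)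
      rw [smul_smul, mul_inv_cancel₀ hp.ne', one_smul] at this
      exact this.le
  set ρ := L + δ₁ / 2 with hρ
  have hρ0 : 0 < ρ := by linarith
  obtain ⟨c, hc, hfar⟩ := hfar ρ (by linarith)
  -- the far part, in inverted coordinates
  set Φ : ℝ × EuclideanSpace ℝ (Fin n) → ℝ :=
    fun z => |z.1| ^ (2 * a) * ‖z.2‖ ^ (2 * a - N) * u (z.1 ^ 2 • z.2) with hΦ
  have hΦc : Continuous Φ := by
    refine ((Continuous.comp (Real.continuous_rpow_const (show (0 : ℝ) ≤ 2 * a by linarith))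
      continuous_fst.abs).mul (Continuous.comp (Real.continuous_rpow_const
        (show (0 : ℝ) ≤ 2 * a - N by linarith)) continuous_snd.norm)).mul (hu.comp (by fun_prop))
  have hev : ∀ z ∈ closedBall (0 : EuclideanSpace ℝ (Fin n)) ρ⁻¹,
      ∀ᶠ q : ℝ × EuclideanSpace ℝ (Fin n) in 𝓝 (L, z), Φ q < Φ (L, q.2) + c * ρ ^ N := by
    intro z _
    have hc' : Continuous fun q : ℝ × EuclideanSpace ℝ (Fin n) => Φ (L, q.2) + c * ρ ^ N :=
      (hΦc.comp (by fun_prop)).add continuous_const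
    exact (hΦc.continuousAt).eventually_lt hc'.continuousAt (by
      show Φ (L, z) < Φ (L, z) + c * ρ ^ N
      have : 0 < c * ρ ^ N := by positivity
      linarith)
  obtain ⟨η, hη, hball⟩ := Metric.eventually_nhds_iff.1
    ((isCompact_closedBall _ _).eventually_forall_of_forall_eventually
      (P := fun l y => Φ (l, y) < Φ (L, y) + c * ρ ^ N) hev)
  refine ⟨min η (δ₁ / 2), lt_min hη (half_pos hδ₁), fun l hLl hlδ x hx => ?_⟩
  have hl : 0 < l := hL.trans_le hLl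
  have hl1 : l < L + η := lt_of_lt_of_le hlδ (by linarith [min_le_left η (δ₁ / 2)])
  have hl2 : l < L + δ₁ := lt_of_lt_of_le hlδ (by linarith [min_le_right η (δ₁ / 2)])
  rcases lt_or_ge ‖x‖ ρ with h | h
  · exact above_of_ray hu2 hband hl hx (by linarith)
  have hxp : 0 < ‖x‖ := hρ0.trans_le h
  set z := (‖x‖ ^ 2)⁻¹ • x with hz
  have hzn : ‖z‖ = ‖x‖⁻¹ := by
    rw [hz, norm_smul, norm_inv, norm_pow, norm_norm]; field_simp
  have := hball (y := l) (by rw [Real.dist_eq, abs_lt]; constructor <;> linarith) z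
    (by rw [mem_closedBall_zero_iff, hzn]; exact inv_anti₀ hρ0 h)
  have hΦe : ∀ m : ℝ, 0 < m → refl a u m x = Φ (m, z) / ‖x‖ ^ N := fun m hm => by
    simp only [refl, hΦ, hzn, invp, abs_of_pos hm, div_eq_mul_inv]
    rw [hz, smul_smul, inv_rpow hxp.le, rpow_sub hxp, mul_rpow hm.le (by positivity), inv_rpow hxp.le]
    field_simp
  have h2 := hfar x h
  rw [hΦe L hL, div_rpow hρ0.le hxp.le, ← mul_div_assoc] at h2
  rw [hΦe l hl]
  have h3 : (Φ (l, z)) / ‖x‖ ^ N ≤ (Φ (L, z) + c * ρ ^ N) / ‖x‖ ^ N :=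
    div_le_div_of_nonneg_right this.le (rpow_nonneg hxp.le N)
  rw [add_div] at h3
  linarith

/-- If both comparisons hold below `L` then they hold at `L`. -/
theorem closed_step {L : ℝ} (hL : 0 < L) (hu : Continuous u)
    (hP : ∀ l, 0 < l → l < L → Above a u l) : Above a u L := by
  intro x hx
  rcases hx.eq_or_lt with h | h
  · rw [refl_self hL h.symm]
  have hx0 : 0 < ‖x‖ := hL.trans h
  have hc : ContinuousAt (fun l : ℝ => refl a u l x) L := by
    simp only [refl, invp]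
    refine ((continuousAt_id.div_const _).rpow_const (Or.inl (by simp only [id_eq]; positivity))).mul
      (hu.continuousAt.comp (f := fun l : ℝ => (l ^ 2 / ‖x‖ ^ 2) • x) (by fun_prop))
  refine le_of_tendsto (hc.tendsto.mono_left (nhdsWithin_le_nhds (s := Iio L))) ?_
  filter_upwards [Ioo_mem_nhdsLT hL] with l hl using hP l hl.1 hl.2 x (hl.2.le.trans h.le)

/-- The comparison holds for every radius, so there are power lower bounds at infinity. -/
theorem power_lower (hn : 3 ≤ n) {A B p q b : ℝ} (hp : 0 < p) (hq : 0 < q) (hA : -2 < A)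
    (hB : -2 < B) (ha : (n : ℝ) - 2 ≤ 2 * a) (hb : (n : ℝ) - 2 ≤ 2 * b)
    (h1 : p * b < 2 + A + a) (h2 : q * a ≤ 2 + B + b)
    {u v : EuclideanSpace ℝ (Fin n) → ℝ} (hu : Continuous u) (hv : Continuous v)
    (hu2 : ∀ x, x ≠ 0 → ContDiffAt ℝ 2 u x) (hv2 : ∀ x, x ≠ 0 → ContDiffAt ℝ 2 v x)
    (hup : ∀ x, 0 < u x) (hvp : ∀ x, 0 < v x)
    (he1 : ∀ x, x ≠ 0 → -(Δ u x) = ‖x‖ ^ A * v x ^ p)
    (he2 : ∀ x, x ≠ 0 → -(Δ v x) = ‖x‖ ^ B * u x ^ q) :
    ∃ k R, 0 < k ∧ 0 < R ∧ ∀ x, R ≤ ‖x‖ → k * ‖x‖ ^ (-a) ≤ u x ∧ k * ‖x‖ ^ (-b) ≤ v x := by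
  set G : ℝ → Prop := fun M => ∀ l, 0 < l → l < M → Above a u l ∧ Above b v l with hG
  have hall : ∀ l, 0 < l → Above a u l ∧ Above b v l := by
    by_contra hne
    push Not at hne
    obtain ⟨M, hM, hMne⟩ := hne
    obtain ⟨δu, hδu, hsu⟩ := above_small hn hp hA ha hu hv hu2 hup hvp he1
    obtain ⟨δv, hδv, hsv⟩ := above_small hn hq hB hb hv hu hv2 hvp hup he2
    set T := {L : ℝ | G L} with hT
    have hbdd : BddAbove T := ⟨M, fun L hL => by
      by_contra h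
      push Not at h
      exact hMne (hL M hM h).1 (hL M hM h).2⟩
    have hmem : min δu δv ∈ T := fun l hl hlt =>
      ⟨hsu l hl (hlt.trans_le (min_le_left _ _)), hsv l hl (hlt.trans_le (min_le_right _ _))⟩
    set L := sSup T with hLd
    have hL : 0 < L := (lt_min hδu hδv).trans_le (le_csSup hbdd hmem)
    have hLT : G L := fun l hl hlL => by
      obtain ⟨L', hL', hlt⟩ := exists_lt_of_lt_csSup ⟨_, hmem⟩ hlL
      exact hL' l hl hlt
    have hPu : ∀ l, 0 < l → l < L → Above a u l := fun l hl h => (hLT l hl h).1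
    have hPv : ∀ l, 0 < l → l < L → Above b v l := fun l hl h => (hLT l hl h).2
    obtain ⟨su, Uu, fu⟩ := strict_at hn hp hL ha hu hu2 hup hvp he1 hPu (closed_step hL hv hPv)
      h1.le (Or.inl h1)
    obtain ⟨-, Uv, fv⟩ := strict_at hn hq hL hb hv hv2 hvp hup he2 hPv (closed_step hL hu hPu)
      h2 (Or.inr su)
    obtain ⟨εu, hεu, hou⟩ := open_step hn hL ha hu hu2 hPu Uu fu
    obtain ⟨εv, hεv, hov⟩ := open_step hn hL hb hv hv2 hPv Uv fv
    have hnew : L + min εu εv ∈ T := fun l hl hlt => by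
      rcases lt_or_ge l L with h | h
      · exact hLT l hl h
      · exact ⟨hou l h (by linarith [min_le_left εu εv]), hov l h (by linarith [min_le_right εu εv])⟩
    have := le_csSup hbdd hnew
    linarith [lt_min hεu hεv]
  have hlow : ∀ (c : ℝ) (f : EuclideanSpace ℝ (Fin n) → ℝ), Continuous f → (∀ x, 0 < f x) →
      (∀ l, 0 < l → Above c f l) → ∃ k, 0 < k ∧ ∀ x, (1 : ℝ) ≤ ‖x‖ → k * ‖x‖ ^ (-c) ≤ f x := by
    intro c f hf hfp hA'
    obtain ⟨z, -, hz⟩ := (isCompact_closedBall (0 : EuclideanSpace ℝ (Fin n)) 1).exists_isMinOn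
      ⟨0, by simp⟩ hf.continuousOn
    refine ⟨f z, hfp z, fun x hx => ?_⟩
    have hxp : 0 < ‖x‖ := one_pos.trans_le hx
    set θ := ‖x‖⁻¹ • x with hθd
    have hθ : ‖θ‖ = 1 := norm_smul_inv_norm (norm_pos_iff.1 hxp)
    have hxθ : ‖x‖ • θ = x := by rw [hθd, smul_smul, mul_inv_cancel₀ hxp.ne', one_smul]
    have := ray_mono (L := ‖x‖) (fun l hl _ => hA' l hl) hθ one_pos hx le_rfl
    rw [one_rpow, one_mul, one_smul, hxθ] at this
    rw [rpow_neg hxp.le, ← div_eq_mul_inv, div_le_iff₀ (rpow_pos_of_pos hxp c), mul_comm (f x)]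
    exact (hz (by rw [mem_closedBall_zero_iff, hθ])).trans this
  obtain ⟨ku, hku, hlu⟩ := hlow a u hu hup fun l hl => (hall l hl).1
  obtain ⟨kv, hkv, hlv⟩ := hlow b v hv hvp fun l hl => (hall l hl).2
  exact ⟨min ku kv, 1, lt_min hku hkv, one_pos, fun x hx =>
    ⟨(mul_le_mul_of_nonneg_right (min_le_left _ _) (by positivity)).trans (hlu x hx),
      (mul_le_mul_of_nonneg_right (min_le_right _ _) (by positivity)).trans (hlv x hx)⟩⟩

/-- A lower power bound for one function improves the bound for the other. -/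
theorem improve {A p b k R : ℝ} (hp : 0 < p) (hk : 0 < k) (hR : 0 < R)
    {u v : EuclideanSpace ℝ (Fin n) → ℝ} (hu2 : ∀ x, x ≠ 0 → ContDiffAt ℝ 2 u x)
    (hup : ∀ x, 0 < u x) (heq : ∀ x, x ≠ 0 → -(Δ u x) = ‖x‖ ^ A * v x ^ p)
    (hv : ∀ x, R ≤ ‖x‖ → k * ‖x‖ ^ (-b) ≤ v x) :
    ∃ k', 0 < k' ∧ ∀ x, 2 * R ≤ ‖x‖ → k' * ‖x‖ ^ (-(p * b - 2 - A)) ≤ u x := by
  set s₀ := A - p * b with hs₀
  set C₀ := k ^ p * ((2 : ℝ) ^ |s₀|)⁻¹ with hC₀
  have hC : 0 < C₀ := by positivity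
  set D : ℝ := 32 + 16 * n + 1 with hD
  have hD0 : 0 < D := by positivity
  refine ⟨C₀ / D * (9 / 4), by positivity, fun x hx => ?_⟩
  set T := ‖x‖ with hT
  have hTR : 2 * R ≤ T := hx
  have hT0 : 0 < T := by linarith
  set ε := C₀ * T ^ s₀ / (D * T ^ 2) with hε
  have hε0 : 0 < ε := by positivity
  have hlapu : ∀ y : EuclideanSpace ℝ (Fin n), T / 2 < ‖y‖ → ‖y‖ < 2 * T →
      Δ u y ≤ -(C₀ * T ^ s₀) := by
    intro y hy hy'
    have hyp : 0 < ‖y‖ := by linarith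
    have h1 := rpow_le_rpow (by positivity) (hv y (by linarith)) hp.le
    rw [mul_rpow hk.le (rpow_nonneg hyp.le _), ← rpow_mul hyp.le] at h1
    have h2 := mul_le_mul_of_nonneg_left h1 (rpow_nonneg hyp.le A)
    have e : ‖y‖ ^ A * (k ^ p * ‖y‖ ^ (-b * p)) = k ^ p * ‖y‖ ^ s₀ := by
      rw [mul_left_comm, ← rpow_add hyp, show A + -b * p = s₀ by rw [hs₀]; ring]
    rw [e, ← heq y (norm_pos_iff.1 hyp)] at h2
    have h3 : ((2 : ℝ) ^ |s₀|)⁻¹ * T ^ s₀ ≤ ‖y‖ ^ s₀ := by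
      rcases le_or_gt 0 s₀ with hs | hs
      · rw [abs_of_nonneg hs, ← inv_rpow two_pos.le, ← mul_rpow (by norm_num) hT0.le]
        exact rpow_le_rpow (by positivity) (by linarith) hs
      · rw [abs_of_neg hs, rpow_neg two_pos.le, inv_inv, ← mul_rpow two_pos.le hT0.le]
        exact rpow_le_rpow_of_nonpos hyp hy'.le hs.le
    have h4 := mul_le_mul_of_nonneg_left h3 (rpow_nonneg hk.le p)
    rw [hC₀, mul_assoc]
    linarith
  have h1 : ∀ s : ℝ, HasDerivAt (fun s => ε * ((4 * T ^ 2 - s) * (s - T ^ 2 / 4)))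
      (ε * (17 / 4 * T ^ 2 - 2 * s)) s := fun s =>
    ((((hasDerivAt_id s).const_sub (4 * T ^ 2)).mul
      ((hasDerivAt_id s).sub_const (T ^ 2 / 4))).const_mul ε).congr_deriv
      (by simp only [id_eq]; ring)
  have h2 : ∀ s : ℝ, HasDerivAt (fun s => ε * (17 / 4 * T ^ 2 - 2 * s)) (-2 * ε) s := fun s =>
    ((((hasDerivAt_id s).const_mul 2).const_sub (17 / 4 * T ^ 2)).const_mul ε).congr_deriv
      (by ring)
  have h := annulus_ge (ε := T / 2) (ρ := 2 * T) (d2 := fun _ => -2 * ε) (by linarith)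
    (fun y hy _ => hu2 y (norm_pos_iff.1 (by linarith))) (fun s _ => h1 s) (fun s _ => h2 s)
    (fun y hy hy' => ?_) (fun y _ => ?_) (fun y _ => ?_) (x := x) (by linarith) (by linarith)
  · refine le_trans (le_of_eq ?_) h
    have e : T ^ (-(p * b - 2 - A)) = T ^ s₀ * T ^ 2 := by
      rw [← rpow_two, ← rpow_add hT0, hs₀]; ring_nf
    rw [← hT, e, hε]
    field_simp
    ring
  · refine (hlapu y hy hy').trans_lt ?_
    have hs2 : ‖y‖ ^ 2 ≤ 4 * T ^ 2 := by nlinarith [norm_nonneg y]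
    have e : C₀ * T ^ s₀ = ε * (D * T ^ 2) := by rw [hε]; field_simp
    have h5 : 0 < ε * T ^ 2 := by positivity
    have h6 : 0 ≤ ε * (4 * T ^ 2 - ‖y‖ ^ 2) := mul_nonneg hε0.le (by linarith)
    have h7 : 0 ≤ (n : ℝ) * (ε * (4 * T ^ 2 - ‖y‖ ^ 2)) := mul_nonneg (Nat.cast_nonneg n) h6
    have h8 : 0 ≤ (n : ℝ) * (ε * T ^ 2) := mul_nonneg (Nat.cast_nonneg n) h5.le
    rw [e, hD]
    linarith
  · exact le_trans (le_of_eq (by ring)) (hup y).le
  · exact le_trans (le_of_eq (by ring)) (hup y).le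

/-- No positive superharmonic function grows like a positive power. -/
theorem false_of_growth (hn : 3 ≤ n) (hu : Continuous u)
    (hu2 : ∀ x, x ≠ 0 → ContDiffAt ℝ 2 u x) (hpos : ∀ x, 0 < u x)
    (hlap : ∀ x, x ≠ 0 → Δ u x < 0) {σ k R : ℝ} (hσ : 0 < σ) (hk : 0 < k)
    (hg : ∀ x, R ≤ ‖x‖ → k * ‖x‖ ^ σ ≤ u x) : False := by
  set N : ℝ := (n : ℝ) - 2 with hN
  have hN0 : 0 < N := by
    have : (3 : ℝ) ≤ n := by exact_mod_cast hn
    linarith
  set M := u 0 + 1 with hM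
  have hM0 : 0 < M := by linarith [hpos 0]
  obtain ⟨T₀, hT₀⟩ := eventually_atTop.1
    (((tendsto_rpow_atTop hσ).const_mul_atTop hk).eventually_ge_atTop M)
  have hall : ∀ x : EuclideanSpace ℝ (Fin n), x ≠ 0 → M ≤ u x := by
    intro x hx
    have hxp := norm_pos_iff.2 hx
    refine le_of_forall_pos_le_add fun τ hτ => ?_
    set δ := τ * ‖x‖ ^ N with hδ
    have hδ0 : 0 < δ := by positivity
    set ε := min ‖x‖ ((δ / M) ^ N⁻¹) with hε
    have hε0 : 0 < ε := lt_min hxp (by positivity)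
    obtain ⟨T, hT1, hT2, hT3⟩ : ∃ T, ‖x‖ ≤ T ∧ R ≤ T ∧ T₀ ≤ T :=
      ⟨max ‖x‖ (max R T₀), le_max_left _ _, (le_max_left _ _).trans (le_max_right _ _),
        (le_max_right _ _).trans (le_max_right _ _)⟩
    obtain ⟨h1, h2, h3⟩ := power_data (n := n) N M (-δ)
    have h := annulus_ge (ρ := T) hε0
      (fun y hy _ => hu2 y (norm_pos_iff.1 (hε0.trans_le hy))) h1 h2 (fun y hy _ => ?_)
      (fun y hy => ?_) (fun y hy => ?_) (min_le_left _ _) hT1
    · rw [pow_two_rpow hxp.le, hδ, neg_mul, mul_assoc, ← rpow_add hxp, add_neg_cancel,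
        rpow_zero, mul_one] at h
      linarith
    · rw [h3 _ (hε0.trans hy), show N + 2 - (n : ℝ) = 0 by rw [hN]; ring, mul_zero, zero_mul]
      exact hlap y (norm_pos_iff.1 (hε0.trans hy))
    · rw [pow_two_rpow hε0.le]
      have h4 : ε ^ N ≤ δ / M := by
        refine (rpow_le_rpow hε0.le (min_le_right _ _) hN0.le).trans_eq ?_
        rw [← rpow_mul (by positivity), inv_mul_cancel₀ hN0.ne', rpow_one]
      have h5 : M ≤ δ * ε ^ (-N) := by
        rw [rpow_neg hε0.le, ← div_eq_mul_inv, le_div_iff₀ (rpow_pos_of_pos hε0 N), mul_comm]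
        exact (le_div_iff₀ hM0).1 h4
      linarith [hpos y]
    · rw [pow_two_rpow (hxp.le.trans hT1)]
      have h6 := hT₀ T hT3
      have h7 := hg y (hy ▸ hT2)
      rw [hy] at h7
      have h8 : 0 ≤ δ * T ^ (-N) := mul_nonneg hδ0.le (rpow_nonneg (hxp.le.trans hT1) _)
      linarith
  obtain ⟨r, hr, hball⟩ := Metric.continuousAt_iff.1 (hu.continuousAt (x := 0)) 1 one_pos
  obtain ⟨e, he⟩ : ∃ e : EuclideanSpace ℝ (Fin n), ‖e‖ = 1 :=
    ⟨EuclideanSpace.basisFun (Fin n) ℝ ⟨0, by omega⟩,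
      (EuclideanSpace.basisFun (Fin n) ℝ).orthonormal.1 _⟩
  have hn2 : ‖(r / 2) • e‖ = r / 2 := by
    rw [norm_smul, he, mul_one, Real.norm_eq_abs, abs_of_pos (half_pos hr)]
  have h9 := hall ((r / 2) • e) (norm_pos_iff.1 (hn2.symm ▸ half_pos hr))
  have h10 := hball (show dist ((r / 2) • e) 0 < r by rw [dist_zero_right, hn2]; linarith)
  rw [Real.dist_eq, abs_lt] at h10
  linarith

/-- The iteration of exponents `a ↦ p (q a - 2 - B) - 2 - A` becomes negative. -/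
theorem exists_iterate_neg {a A B p q : ℝ} (hp : 0 < p) (hq : 0 < q) (hA : -2 < A) (hB : -2 < B)
    (h : p * (q * a - 2 - B) - 2 - A < a) :
    ∃ k : ℕ, (fun t => p * (q * t - 2 - B) - 2 - A)^[k] a < 0 := by
  set f : ℝ → ℝ := fun t => p * (q * t - 2 - B) - 2 - A with hf
  set d := a - f a with hd
  have hd0 : 0 < d := sub_pos.2 h
  have hdiff : ∀ k, f^[k] a - f^[k + 1] a = (p * q) ^ k * d := by
    intro k
    induction k with
    | zero => simp [hd]
    | succ k ih =>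
      rw [Function.iterate_succ_apply' f (k + 1), Function.iterate_succ_apply' f k] at *
      have : f (f^[k] a) - f (f (f^[k] a)) = p * q * (f^[k] a - f (f^[k] a)) := by
        simp only [hf]; ring
      rw [this, ih]; ring
  rcases le_or_gt 1 (p * q) with h1 | h1
  · have : ∀ k : ℕ, f^[k] a ≤ a - k * d := by
      intro k
      induction k with
      | zero => simp
      | succ k ih =>
        have := hdiff k
        have : d ≤ (p * q) ^ k * d := le_mul_of_one_le_left hd0.le (one_le_pow₀ h1)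
        push_cast
        linarith
    obtain ⟨k, hk⟩ := exists_nat_gt (a / d)
    rw [div_lt_iff₀ hd0] at hk
    exact ⟨k, (this k).trans_lt (by linarith)⟩
  · set t := -(p * (2 + B) + 2 + A) / (1 - p * q) with ht
    have h2 : 0 < 1 - p * q := by linarith
    have ht0 : t < 0 := div_neg_of_neg_of_pos (by
      have := mul_pos hp (show 0 < 2 + B by linarith)
      linarith) h2
    have hft : f t = t := by simp only [hf, ht]; field_simp; ring
    have : ∀ k, f^[k] a - t = (p * q) ^ k * (a - t) := by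
      intro k
      induction k with
      | zero => simp
      | succ k ih =>
        rw [Function.iterate_succ_apply']
        calc f (f^[k] a) - t = f (f^[k] a) - f t := by rw [hft]
          _ = p * q * (f^[k] a - t) := by simp only [hf]; ring
          _ = _ := by rw [ih]; ring
    have hlim : Tendsto (fun k => f^[k] a) atTop (𝓝 t) := by
      have hl := ((tendsto_pow_atTop_nhds_zero_of_lt_one (by positivity) h1).mul_const
        (a - t)).add_const t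
      simp only [zero_mul, zero_add] at hl
      refine hl.congr fun k => ?_
      linarith [this k]
    exact (hlim.eventually (eventually_lt_nhds ht0)).exists

/-- No positive entire solution when `(n - 2) / 2` is below both scaling exponents. -/
theorem no_solution {A B p q : ℝ} (hn : 3 ≤ n) (hp : 0 < p) (hq : 0 < q) (hA : -2 < A)
    (hB : -2 < B) (h1 : ((n : ℝ) - 2) / 2 * (p * q - 1) < 2 + A + p * (2 + B))
    (h2 : ((n : ℝ) - 2) / 2 * (p * q - 1) < 2 + B + q * (2 + A))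
    {u v : EuclideanSpace ℝ (Fin n) → ℝ} (hu : Continuous u)
    (hv : Continuous v) (hu2 : ContDiffOn ℝ 2 u {0}ᶜ) (hv2 : ContDiffOn ℝ 2 v {0}ᶜ)
    (hup : ∀ x, 0 < u x) (hvp : ∀ x, 0 < v x)
    (he1 : ∀ x, x ≠ 0 → -(Δ u x) = ‖x‖ ^ A * v x ^ p)
    (he2 : ∀ x, x ≠ 0 → -(Δ v x) = ‖x‖ ^ B * u x ^ q) : False := by
  set η := ((n : ℝ) - 2) / 2 with hη
  set b := max η (q * η - 2 - B) with hb
  set a := (2 + B + b) / q with ha
  have hbη : η ≤ b := le_max_left _ _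
  have haη : η ≤ a := by
    rw [ha, le_div_iff₀ hq]
    linarith [le_max_right η (q * η - 2 - B)]
  have hqa : q * a = 2 + B + b := by rw [ha]; field_simp
  have hpb : p * b < 2 + A + a := by
    have : b * (p * q - 1) < 2 + B + q * (2 + A) := by
      rcases max_cases η (q * η - 2 - B) with ⟨e, -⟩ | ⟨e, -⟩
      · rw [hb, e]; exact h2
      · rw [hb, e]; nlinarith [mul_lt_mul_of_pos_left h1 hq]
    rw [ha, ← sub_pos, show 2 + A + (2 + B + b) / q - p * b =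
      (2 + B + q * (2 + A) - b * (p * q - 1)) / q by field_simp; ring]
    exact div_pos (by linarith) hq
  have hcd : ∀ {w : EuclideanSpace ℝ (Fin n) → ℝ}, ContDiffOn ℝ 2 w {0}ᶜ →
      ∀ x, x ≠ 0 → ContDiffAt ℝ 2 w x := fun h x hx =>
    h.contDiffAt (isOpen_compl_singleton.mem_nhds hx)
  obtain ⟨k, R, hk, hR, hlow⟩ := power_lower hn hp hq hA hB (a := a) (b := b)
    (by linarith) (by linarith) hpb hqa.le hu hv (hcd hu2) (hcd hv2) hup hvp he1 he2
  set f : ℝ → ℝ := fun t => p * (q * t - 2 - B) - 2 - A with hf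
  have iter : ∀ j : ℕ, ∃ k R, 0 < k ∧ 0 < R ∧ ∀ x : EuclideanSpace ℝ (Fin n), R ≤ ‖x‖ →
      k * ‖x‖ ^ (-(f^[j] a)) ≤ u x := by
    intro j
    induction j with
    | zero => exact ⟨k, R, hk, hR, fun x hx => (hlow x hx).1⟩
    | succ j ih =>
      obtain ⟨k₁, R₁, hk₁, hR₁, h₁⟩ := ih
      obtain ⟨k₂, hk₂, h₂⟩ := improve hq hk₁ hR₁ (hcd hv2) hvp he2 h₁
      obtain ⟨k₃, hk₃, h₃⟩ := improve hp hk₂ (by positivity) (hcd hu2) hup he1 h₂
      refine ⟨k₃, 2 * (2 * R₁), hk₃, by positivity, fun x hx => ?_⟩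
      have := h₃ x hx
      rwa [Function.iterate_succ_apply']
  have hfa : f a < a := by
    have : f a = p * b - 2 - A := by simp only [hf, hqa]; ring
    linarith
  obtain ⟨j, hj⟩ := exists_iterate_neg hp hq hA hB hfa
  obtain ⟨k', R', hk', -, hg⟩ := iter j
  exact false_of_growth hn hu (hcd hu2) hup (fun x hx => by
    have := mul_pos (rpow_pos_of_pos (norm_pos_iff.2 hx) A) (rpow_pos_of_pos (hvp x) p)
    linarith [he1 x hx]) (σ := -(f^[j] a)) (neg_pos.2 hj) hk' hg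

end

end Vale.Agent.P100.Sphere
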