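import Mathlib

/-!
Comparison with radial functions at a puncture, and the resulting nonexistence statements for the
Hénon-Lane-Emden system in the plane and for weights at most inverse square.
-/

open Set Filter Metric Laplacian InnerProductSpace
open scoped Topology RealInnerProductSpace

namespace Vale.Agent.P100

noncomputable section

variable {n : ℕ}

theorem deriv_deriv_nonneg {q : ℝ → ℝ} {a : ℝ} (h : IsLocalMin q a) (hc : ContinuousAt q a) :
    0 ≤ deriv (deriv q) a := by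
  by_contra hneg
  push Not at hneg
  have hmax := isLocalMax_of_deriv_deriv_neg hneg h.deriv_eq_zero hc
  have hev : q =ᶠ[𝓝 a] fun _ => q a := by
    filter_upwards [h, hmax] with t ht ht' using le_antisymm ht' ht
  have h1 : deriv q =ᶠ[𝓝 a] fun _ => (0 : ℝ) := by
    refine hev.deriv.trans (Eventually.of_forall fun t => ?_)
    simp
  rw [h1.deriv_eq] at hneg
  simp at hneg

/-- The second derivative along a line. -/
theorem line_deriv {g : EuclideanSpace ℝ (Fin n) → ℝ} {x e : EuclideanSpace ℝ (Fin n)}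
    (hg : ContDiffAt ℝ 2 g x) :
    ∃ q' : ℝ → ℝ, (∀ᶠ t in 𝓝 (0 : ℝ), HasDerivAt (fun t => g (x + t • e)) (q' t) t) ∧
      HasDerivAt q' (iteratedFDeriv ℝ 2 g x ![e, e]) 0 := by
  refine ⟨fun t => fderiv ℝ g (x + t • e) e, ?_, ?_⟩
  · have hl : ContinuousAt (fun t : ℝ => x + t • e) 0 := by fun_prop
    have hev : ∀ᶠ y in 𝓝 x, ContDiffAt ℝ 2 g y := hg.eventually (by norm_num)
    have hev' : ∀ᶠ t in 𝓝 (0 : ℝ), ContDiffAt ℝ 2 g (x + t • e) :=
      hl.eventually (by simpa using hev)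
    filter_upwards [hev'] with t ht
    have hd : HasDerivAt (fun t : ℝ => x + t • e) e t := by
      simpa using ((hasDerivAt_id t).smul_const e).const_add x
    exact (ht.differentiableAt (by norm_num)).hasFDerivAt.comp_hasDerivAt t hd
  · have hd : HasDerivAt (fun t : ℝ => x + t • e) e 0 := by
      simpa using ((hasDerivAt_id (0 : ℝ)).smul_const e).const_add x
    have h2 : DifferentiableAt ℝ (fderiv ℝ g) x :=
      (hg.fderiv_right (m := 1) (by norm_num)).differentiableAt (by norm_num)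
    have h3 : HasDerivAt (fun t : ℝ => fderiv ℝ g (x + t • e)) (fderiv ℝ (fderiv ℝ g) x e) 0 := by
      have h2' : HasFDerivAt (fderiv ℝ g) (fderiv ℝ (fderiv ℝ g) x) (x + (0 : ℝ) • e) := by
        simpa using h2.hasFDerivAt
      exact h2'.comp_hasDerivAt 0 hd
    have h4 := h3.clm_apply (hasDerivAt_const (0 : ℝ) e)
    simpa [iteratedFDeriv_two_apply] using h4

/-- At an interior minimum of `u - φ (|y| ^ 2)` the Laplacian of `u` is at least that of the radial
function. -/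
theorem laplacian_ge_radial {u : EuclideanSpace ℝ (Fin n) → ℝ} {x : EuclideanSpace ℝ (Fin n)}
    {φ d1 : ℝ → ℝ} {d2 : ℝ} (hu : ContDiffAt ℝ 2 u x)
    (h1 : ∀ᶠ s in 𝓝 (‖x‖ ^ 2), HasDerivAt φ (d1 s) s) (h2 : HasDerivAt d1 d2 (‖x‖ ^ 2))
    (hmin : IsLocalMin (fun y => u y - φ (‖y‖ ^ 2)) x) :
    4 * d2 * ‖x‖ ^ 2 + 2 * n * d1 (‖x‖ ^ 2) ≤ Δ u x := by
  set b := EuclideanSpace.basisFun (Fin n) ℝ
  have key : ∀ i, 4 * d2 * ⟪b i, x⟫ ^ 2 + 2 * d1 (‖x‖ ^ 2) ≤
      iteratedFDeriv ℝ 2 u x ![b i, b i] := by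
    intro i
    obtain ⟨q', hq, hq'⟩ := line_deriv (e := b i) hu
    set c := ⟪b i, x⟫ with hc
    set σ : ℝ → ℝ := fun t => ‖x + t • b i‖ ^ 2 with hσd
    have hσ : ∀ t, σ t = ‖x‖ ^ 2 + 2 * c * t + t ^ 2 := fun t => by
      simp only [hσd]
      rw [norm_add_sq_real, real_inner_smul_right, norm_smul, b.orthonormal.1 i, real_inner_comm,
        ← hc, mul_one, Real.norm_eq_abs, sq_abs]
      ring
    have hσ' : ∀ t, HasDerivAt σ (2 * c + 2 * t) t := fun t => by
      rw [funext hσ]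
      exact ((((hasDerivAt_id t).const_mul (2 * c)).const_add (‖x‖ ^ 2)).add
        (hasDerivAt_pow 2 t)).congr_deriv (by simp)
    have hσ0 : σ 0 = ‖x‖ ^ 2 := by simp [hσd]
    have hev : ∀ᶠ t in 𝓝 (0 : ℝ), HasDerivAt φ (d1 (σ t)) (σ t) :=
      (hσ' 0).continuousAt.eventually (by rw [hσ0]; exact h1)
    have hQ : ∀ᶠ t in 𝓝 (0 : ℝ), HasDerivAt (fun t => u (x + t • b i) - φ (σ t))
        (q' t - d1 (σ t) * (2 * c + 2 * t)) t := by
      filter_upwards [hq, hev] with t ht ht'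
      exact ht.sub (ht'.comp t (hσ' t))
    have h2' : HasDerivAt d1 d2 (σ 0) := by rw [hσ0]; exact h2
    have hQ' : HasDerivAt (fun t => q' t - d1 (σ t) * (2 * c + 2 * t))
        (iteratedFDeriv ℝ 2 u x ![b i, b i] -
          (d2 * (2 * c) * (2 * c) + d1 (‖x‖ ^ 2) * 2)) 0 := by
      have hlin : HasDerivAt (fun t : ℝ => 2 * c + 2 * t) 2 0 := by
        simpa using ((hasDerivAt_id (0 : ℝ)).const_mul 2).const_add (2 * c)
      exact (hq'.sub ((h2'.comp 0 (hσ' 0)).mul hlin)).congr_deriv (by simp [hσ0])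
    have hm : IsLocalMin (fun t => u (x + t • b i) - φ (σ t)) 0 := by
      have hl : ContinuousAt (fun t : ℝ => x + t • b i) 0 := by fun_prop
      have hmin' : IsLocalMin (fun y => u y - φ (‖y‖ ^ 2)) (x + (0 : ℝ) • b i) := by
        simpa using hmin
      exact IsLocalMin.comp_continuous (f := fun y => u y - φ (‖y‖ ^ 2))
        (g := fun t : ℝ => x + t • b i) hmin' hl
    have hnn := deriv_deriv_nonneg hm hQ.self_of_nhds.continuousAt
    have he : deriv (fun t => u (x + t • b i) - φ (σ t)) =ᶠ[𝓝 0]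
        fun t => q' t - d1 (σ t) * (2 * c + 2 * t) := by
      filter_upwards [hQ] with t ht using ht.deriv
    rw [he.deriv_eq, hQ'.deriv] at hnn
    linarith
  have hs := Finset.sum_le_sum (s := Finset.univ) fun i _ => key i
  rw [laplacian_eq_iteratedFDeriv_orthonormalBasis u b]
  refine le_trans (le_of_eq ?_) hs
  rw [Finset.sum_add_distrib, ← Finset.mul_sum, b.sum_sq_inner_right, Finset.sum_const,
    Finset.card_univ, Fintype.card_fin, nsmul_eq_mul]
  ring

/-- Comparison on an annulus with a radial function of larger Laplacian. -/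
theorem radial_le {u : EuclideanSpace ℝ (Fin n) → ℝ} {φ d1 d2 : ℝ → ℝ} {ε ρ : ℝ}
    (hu : Continuous u) (hu2 : ∀ x, x ≠ 0 → ContDiffAt ℝ 2 u x) (hε : 0 < ε)
    (h1 : ∀ s, 0 < s → HasDerivAt φ (d1 s) s) (h2 : ∀ s, 0 < s → HasDerivAt d1 (d2 s) s)
    (hlap : ∀ x, ε < ‖x‖ → ‖x‖ < ρ →
      Δ u x < 4 * d2 (‖x‖ ^ 2) * ‖x‖ ^ 2 + 2 * n * d1 (‖x‖ ^ 2))
    (hin : ∀ x, ‖x‖ = ε → φ (ε ^ 2) ≤ u x) (hout : ∀ x, ‖x‖ = ρ → φ (ρ ^ 2) ≤ u x)
    {x : EuclideanSpace ℝ (Fin n)} (hx : ε ≤ ‖x‖) (hx' : ‖x‖ ≤ ρ) : φ (‖x‖ ^ 2) ≤ u x := by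
  set S : Set (EuclideanSpace ℝ (Fin n)) := {y | ε ≤ ‖y‖} ∩ closedBall 0 ρ with hS
  have hmem : ∀ y, y ∈ S ↔ ε ≤ ‖y‖ ∧ ‖y‖ ≤ ρ := fun y => by simp [hS]
  have hSc : IsCompact S :=
    (isCompact_closedBall 0 ρ).inter_left (isClosed_le continuous_const continuous_norm)
  have hne : S.Nonempty := ⟨x, (hmem x).2 ⟨hx, hx'⟩⟩
  have hc : ContinuousOn (fun y => u y - φ (‖y‖ ^ 2)) S := fun y hy => by
    have hy0 : 0 < ‖y‖ ^ 2 := pow_pos (hε.trans_le ((hmem y).1 hy).1) 2
    refine (hu.continuousAt.sub ?_).continuousWithinAt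
    exact (h1 _ hy0).continuousAt.comp (f := fun y : EuclideanSpace ℝ (Fin n) => ‖y‖ ^ 2)
      (by fun_prop)
  obtain ⟨z, hz, hzmin⟩ := hSc.exists_isMinOn hne hc
  have hzx := hzmin ((hmem x).2 ⟨hx, hx'⟩)
  simp only [mem_setOf_eq] at hzx
  obtain ⟨hz1, hz2⟩ := (hmem z).1 hz
  rcases hz1.eq_or_lt with e | hz1
  · have := hin z e.symm
    rw [← e] at hzx
    linarith
  rcases hz2.eq_or_lt with e | hz2
  · have := hout z e
    rw [e] at hzx
    linarith
  exfalso
  have hnhds : S ∈ 𝓝 z := by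
    refine mem_of_superset ((isOpen_Ioo.preimage continuous_norm).mem_nhds
      (show z ∈ norm ⁻¹' Ioo ε ρ from ⟨hz1, hz2⟩)) fun y hy => (hmem y).2 ⟨hy.1.le, hy.2.le⟩
  have hz0 : 0 < ‖z‖ ^ 2 := pow_pos (hε.trans hz1) 2
  have hz' : z ≠ 0 := norm_pos_iff.1 (hε.trans hz1)
  exact absurd (laplacian_ge_radial (hu2 z hz')
    (eventually_of_mem (Ioi_mem_nhds hz0) fun s hs => h1 s hs) (h2 _ hz0)
    (hzmin.isLocalMin hnhds)) (not_le.2 (hlap z hz1 hz2))

theorem hasDerivAt_affine_log (m a s : ℝ) (hs : s ≠ 0) :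
    HasDerivAt (fun s => m + a * Real.log s) (a * s⁻¹) s :=
  ((Real.hasDerivAt_log hs).const_mul a).const_add m

theorem hasDerivAt_inv_mul (a s : ℝ) (hs : s ≠ 0) :
    HasDerivAt (fun s => a * s⁻¹) (a * -(s ^ 2)⁻¹) s :=
  (hasDerivAt_inv hs).const_mul a

/-- No positive continuous function on the plane is strictly superharmonic off the origin. -/
theorem false_of_superharmonic_plane {u : EuclideanSpace ℝ (Fin 2) → ℝ} (hu : Continuous u)
    (hu2 : ∀ x, x ≠ 0 → ContDiffAt ℝ 2 u x) (hpos : ∀ x, 0 < u x)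
    (hlap : ∀ x, x ≠ 0 → Δ u x < 0) : False := by
  have hne : (sphere (0 : EuclideanSpace ℝ (Fin 2)) 1).Nonempty :=
    (NormedSpace.sphere_nonempty).2 zero_le_one
  obtain ⟨x0, hx0, hmin⟩ := (isCompact_sphere 0 1).exists_isMinOn hne hu.continuousOn
  have hx01 : ‖x0‖ = 1 := by simpa using hx0
  set m := u x0 with hm
  have hm1 : ∀ x, ‖x‖ = 1 → m ≤ u x := fun x hx => hmin (by simpa using hx)
  have hbar : ∀ a ε ρ : ℝ, 0 < ε → m + a * Real.log (ε ^ 2) ≤ 0 ∧ ρ = 1 ∨
      ε = 1 ∧ m + a * Real.log (ρ ^ 2) ≤ 0 →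
      ∀ x, ε ≤ ‖x‖ → ‖x‖ ≤ ρ → m + a * Real.log (‖x‖ ^ 2) ≤ u x := by
    intro a ε ρ hε hcase x hx hx'
    refine radial_le (d2 := fun s => a * -(s ^ 2)⁻¹) hu hu2 hε
      (fun s hs => hasDerivAt_affine_log m a s hs.ne') (fun s hs => hasDerivAt_inv_mul a s hs.ne')
      (fun y hy _ => ?_) (fun y hy => ?_) (fun y hy => ?_) hx hx'
    · have hy0 : y ≠ 0 := norm_pos_iff.1 (hε.trans hy)
      have hy2 : ‖y‖ ^ 2 ≠ 0 := pow_ne_zero _ (norm_ne_zero_iff.2 hy0)
      refine (hlap y hy0).trans_eq ?_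
      push_cast
      field_simp
      ring
    · rcases hcase with ⟨h, -⟩ | ⟨h, -⟩
      · exact h.trans (hpos y).le
      · subst h; simpa using hm1 y hy
    · rcases hcase with ⟨-, h⟩ | ⟨-, h⟩
      · subst h; simpa using hm1 y hy
      · exact h.trans (hpos y).le
  have hglob : ∀ x, x ≠ 0 → m ≤ u x := by
    intro x hx
    have hx0 : 0 < ‖x‖ := norm_pos_iff.2 hx
    refine le_of_forall_pos_le_add fun δ hδ => ?_
    set L := |Real.log (‖x‖ ^ 2)| + 1 with hL
    have hL0 : 0 < L := by positivity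
    set η := δ / L with hη
    have hη0 : 0 < η := div_pos hδ hL0
    have hsmall : η * |Real.log (‖x‖ ^ 2)| ≤ δ := by
      rw [hη, div_mul_eq_mul_div, div_le_iff₀ hL0]
      exact mul_le_mul_of_nonneg_left (by linarith) hδ.le
    rcases le_total ‖x‖ 1 with h | h
    · set ε := min ‖x‖ (Real.exp (-(m / η) / 2)) with hεd
      have hε : 0 < ε := lt_min hx0 (Real.exp_pos _)
      have hl : Real.log (ε ^ 2) ≤ -(m / η) := by
        have := Real.log_le_log hε (min_le_right ‖x‖ (Real.exp (-(m / η) / 2)))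
        rw [Real.log_exp] at this
        rw [Real.log_pow]
        push_cast
        linarith
      have h0 : m + η * Real.log (ε ^ 2) ≤ 0 := by
        have := mul_le_mul_of_nonneg_left hl hη0.le
        rw [mul_neg, mul_div_cancel₀ _ hη0.ne'] at this
        linarith
      have := hbar η ε 1 hε (Or.inl ⟨h0, rfl⟩) x (min_le_left _ _) h
      have := mul_le_mul_of_nonneg_left (neg_abs_le (Real.log (‖x‖ ^ 2))) hη0.le
      linarith
    · set ρ := max ‖x‖ (Real.exp (m / η / 2)) with hρd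
      have hl : m / η ≤ Real.log (ρ ^ 2) := by
        have := Real.log_le_log (Real.exp_pos _) (le_max_right ‖x‖ (Real.exp (m / η / 2)))
        rw [Real.log_exp] at this
        rw [Real.log_pow]
        push_cast
        linarith
      have h0 : m + -η * Real.log (ρ ^ 2) ≤ 0 := by
        have := mul_le_mul_of_nonneg_left hl hη0.le
        rw [mul_div_cancel₀ _ hη0.ne'] at this
        linarith
      have := hbar (-η) 1 ρ one_pos (Or.inr ⟨rfl, h0⟩) x h (le_max_left _ _)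
      have := mul_le_mul_of_nonneg_left (le_abs_self (Real.log (‖x‖ ^ 2))) hη0.le
      linarith
  have hx0' : x0 ≠ 0 := fun h => by simp [h] at hx01
  have hloc : IsLocalMin (fun y => u y - (0 : ℝ)) x0 := by
    filter_upwards [isOpen_ne.mem_nhds hx0'] with y hy
    simpa using hglob y hy
  have := laplacian_ge_radial (φ := fun _ => 0) (d1 := fun _ => 0) (d2 := 0) (hu2 x0 hx0')
    (Eventually.of_forall fun s => hasDerivAt_const s 0) (hasDerivAt_const _ 0) hloc
  have := hlap x0 hx0'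
  simp at *
  linarith

/-- A source at least of inverse square order makes a superharmonic function unbounded at the
puncture. -/
theorem false_of_inverse_square {u : EuclideanSpace ℝ (Fin n) → ℝ} (hn : 2 ≤ n)
    (hu : Continuous u) (hu2 : ∀ x, x ≠ 0 → ContDiffAt ℝ 2 u x) {r c : ℝ} (hr : 0 < r)
    (hr1 : r ≤ 1) (hc : 0 < c)
    (hlap : ∀ x, x ≠ 0 → ‖x‖ ≤ r → Δ u x ≤ -(c / ‖x‖ ^ 2)) : False := by
  have hn' : (2 : ℝ) ≤ n := by exact_mod_cast hn
  obtain ⟨lo, hlo⟩ := (isCompact_closedBall (0 : EuclideanSpace ℝ (Fin n)) r).bddBelow_image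
    hu.continuousOn
  obtain ⟨hi, hhi⟩ := (isCompact_closedBall (0 : EuclideanSpace ℝ (Fin n)) r).bddAbove_image
    hu.continuousOn
  set κ := c / (4 * n) with hκd
  have hκ : 0 < κ := by positivity
  set m := lo + κ * Real.log (r ^ 2) with hm
  have hlow : ∀ x, x ≠ 0 → ‖x‖ ≤ r → m - κ * Real.log (2 * ‖x‖ ^ 2) ≤ u x := by
    intro x hx hxr
    have hx0 : 0 < ‖x‖ := norm_pos_iff.2 hx
    set δ := ‖x‖ ^ 2 with hδd
    have hδ : 0 < δ := pow_pos hx0 2
    refine le_of_forall_pos_le_add fun τ hτ => ?_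
    set η := τ / (|Real.log δ| + 1) with hηd
    have hη : 0 < η := by positivity
    set φ : ℝ → ℝ := fun s => m + η * Real.log s - κ * Real.log (s + δ) with hφ
    set M0 := (m - κ * Real.log δ - lo) / η with hM0
    set ε := min ‖x‖ (Real.exp (-M0 / 2)) with hεd
    have hε : 0 < ε := lt_min hx0 (Real.exp_pos _)
    have hmain : φ δ ≤ u x := by
      refine radial_le (φ := φ) (d1 := fun s => η * s⁻¹ - κ * (s + δ)⁻¹)
        (d2 := fun s => η * -(s ^ 2)⁻¹ - κ * -((s + δ) ^ 2)⁻¹) (ρ := r) hu hu2 hε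
        (fun s hs => ?_) (fun s hs => ?_) (fun y hy hyr => ?_) (fun y hy => ?_) (fun y hy => ?_)
        (min_le_left _ _) hxr
      · have h1 : HasDerivAt (fun t => Real.log (t + δ)) (s + δ)⁻¹ s := by
          simpa using ((hasDerivAt_id s).add_const δ).log (show id s + δ ≠ 0 by simp; linarith)
        exact (hasDerivAt_affine_log m η s hs.ne').sub (h1.const_mul κ)
      · have h1 : HasDerivAt (fun t => (t + δ)⁻¹) (-((s + δ) ^ 2)⁻¹) s :=
          (((hasDerivAt_id s).add_const δ).inv (show id s + δ ≠ 0 by simp; linarith)).congr_deriv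
            (by simp [neg_div])
        exact (hasDerivAt_inv_mul η s hs.ne').sub (h1.const_mul κ)
      · have hy0 : y ≠ 0 := norm_pos_iff.1 (hε.trans hy)
        have hs : 0 < ‖y‖ ^ 2 := pow_pos (hε.trans hy) 2
        refine (hlap y hy0 hyr.le).trans_lt ?_
        set s := ‖y‖ ^ 2 with hsd
        have hA : 4 * (η * -(s ^ 2)⁻¹) * s + 2 * n * (η * s⁻¹) = η * (2 * n - 4) / s := by
          field_simp
          ring
        have hA0 : 0 ≤ η * (2 * n - 4) / s :=
          div_nonneg (mul_nonneg hη.le (by linarith)) hs.le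
        have hB : κ * (s + δ)⁻¹ ≤ κ / s := by
          rw [div_eq_mul_inv]
          exact mul_le_mul_of_nonneg_left (inv_anti₀ hs (by linarith)) hκ.le
        have hC : 0 ≤ 4 * (κ * ((s + δ) ^ 2)⁻¹) * s := by positivity
        have hD : 2 * (n : ℝ) * (κ / s) < c / s := by
          rw [hκd, ← mul_div_assoc, div_lt_div_iff_of_pos_right hs,
            show 2 * (n : ℝ) * (c / (4 * n)) = c / 2 by field_simp; ring]
          linarith
        have hB' := mul_le_mul_of_nonneg_left hB (show (0 : ℝ) ≤ 2 * n by positivity)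
        linarith
      · have hy' : lo ≤ u y := hlo (mem_image_of_mem u (by
          rw [mem_closedBall_zero_iff, hy]; exact (min_le_left _ _).trans hxr))
        have hl : Real.log (ε ^ 2) ≤ -M0 := by
          have := Real.log_le_log hε (min_le_right ‖x‖ (Real.exp (-M0 / 2)))
          rw [Real.log_exp] at this
          rw [Real.log_pow]
          push_cast
          linarith
        have h1 := mul_le_mul_of_nonneg_left hl hη.le
        rw [hM0, mul_neg, mul_div_cancel₀ _ hη.ne'] at h1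
        have h2 := mul_le_mul_of_nonneg_left
          (Real.log_le_log hδ (show δ ≤ ε ^ 2 + δ by nlinarith)) hκ.le
        simp only [hφ]
        linarith
      · have hy' : lo ≤ u y := hlo (mem_image_of_mem u (by rw [mem_closedBall_zero_iff, hy]))
        have h1 : η * Real.log (r ^ 2) ≤ 0 :=
          mul_nonpos_of_nonneg_of_nonpos hη.le
            (Real.log_nonpos (by positivity) (pow_le_one₀ hr.le hr1))
        have h2 := mul_le_mul_of_nonneg_left
          (Real.log_le_log (pow_pos hr 2) (show r ^ 2 ≤ r ^ 2 + δ by linarith)) hκ.le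
        simp only [hφ, hm]
        linarith
    have h3 : η * |Real.log δ| ≤ τ := by
      rw [hηd, div_mul_eq_mul_div, div_le_iff₀ (by positivity)]
      exact mul_le_mul_of_nonneg_left (by linarith) hτ.le
    have h4 := mul_le_mul_of_nonneg_left (neg_abs_le (Real.log δ)) hη.le
    simp only [hφ] at hmain
    rw [← two_mul] at hmain
    linarith
  set t := min r (Real.exp (((m - hi - 1) / κ - Real.log 2) / 2)) with ht
  have ht0 : 0 < t := lt_min hr (Real.exp_pos _)
  obtain ⟨x, hx⟩ : ∃ x : EuclideanSpace ℝ (Fin n), ‖x‖ = t :=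
    ⟨t • EuclideanSpace.basisFun (Fin n) ℝ ⟨0, by omega⟩, by
      rw [norm_smul, (EuclideanSpace.basisFun (Fin n) ℝ).orthonormal.1, mul_one, Real.norm_eq_abs,
        abs_of_pos ht0]⟩
  have hxr : ‖x‖ ≤ r := by rw [hx]; exact min_le_left _ _
  have h1 := hlow x (norm_pos_iff.1 (hx ▸ ht0)) hxr
  have h2 : u x ≤ hi := hhi (mem_image_of_mem u (mem_closedBall_zero_iff.2 hxr))
  have h3 : Real.log (2 * ‖x‖ ^ 2) ≤ (m - hi - 1) / κ := by
    rw [hx, Real.log_mul two_ne_zero (pow_ne_zero _ ht0.ne'), Real.log_pow]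
    have := Real.log_le_log ht0 (min_le_right r (Real.exp (((m - hi - 1) / κ - Real.log 2) / 2)))
    rw [Real.log_exp] at this
    push_cast
    linarith
  have h4 := mul_le_mul_of_nonneg_left h3 hκ.le
  rw [mul_div_cancel₀ _ hκ.ne'] at h4
  linarith

/-- A right-hand side with weight at most inverse square is of inverse square order near the
puncture. -/
theorem exists_inverse_square_bound {u v : EuclideanSpace ℝ (Fin n) → ℝ} {A p : ℝ} (hp : 0 < p)
    (hA : A ≤ -2) (hv : Continuous v) (hv0 : 0 < v 0)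
    (heq : ∀ x, x ≠ 0 → -(Δ u x) = ‖x‖ ^ A * v x ^ p) :
    ∃ r c : ℝ, 0 < r ∧ r ≤ 1 ∧ 0 < c ∧
      ∀ x, x ≠ 0 → ‖x‖ ≤ r → Δ u x ≤ -(c / ‖x‖ ^ 2) := by
  obtain ⟨r, hr, hball⟩ := Metric.continuousAt_iff.1 hv.continuousAt (v 0 / 2) (half_pos hv0)
  refine ⟨min (r / 2) 1, (v 0 / 2) ^ p, lt_min (half_pos hr) one_pos, min_le_right _ _,
    Real.rpow_pos_of_pos (half_pos hv0) p, fun x hx hxr => ?_⟩
  have hx0 : 0 < ‖x‖ := norm_pos_iff.2 hx
  have hd : dist x 0 < r := by
    rw [dist_zero_right]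
    linarith [hxr.trans (min_le_left (r / 2) 1)]
  have h1 := hball hd
  rw [Real.dist_eq, abs_lt] at h1
  have h2 : (v 0 / 2) ^ p ≤ v x ^ p :=
    Real.rpow_le_rpow (half_pos hv0).le (by linarith) hp.le
  have h3 : (‖x‖ ^ 2)⁻¹ ≤ ‖x‖ ^ A := by
    have := Real.rpow_le_rpow_of_exponent_ge hx0 (hxr.trans (min_le_right _ _)) hA
    rwa [Real.rpow_neg hx0.le, Real.rpow_two] at this
  have h4 : (v 0 / 2) ^ p / ‖x‖ ^ 2 ≤ ‖x‖ ^ A * v x ^ p := by
    rw [div_eq_inv_mul]
    exact mul_le_mul h3 h2 (Real.rpow_pos_of_pos (half_pos hv0) p).le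
      (Real.rpow_nonneg hx0.le _)
  linarith [heq x hx]

/-- No positive entire solution of the Hénon-Lane-Emden system exists in the plane, nor in any
dimension at least two when one weight exponent is at most `-2`. -/
theorem no_solution {A B p q : ℝ} (hn : 2 ≤ n) (hp : 0 < p) (hq : 0 < q)
    (hcase : n = 2 ∨ A ≤ -2 ∨ B ≤ -2) {u v : EuclideanSpace ℝ (Fin n) → ℝ} (hu : Continuous u)
    (hv : Continuous v) (hu2 : ContDiffOn ℝ 2 u {0}ᶜ) (hv2 : ContDiffOn ℝ 2 v {0}ᶜ)
    (hupos : ∀ x, 0 < u x) (hvpos : ∀ x, 0 < v x)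
    (he1 : ∀ x, x ≠ 0 → -(Δ u x) = ‖x‖ ^ A * v x ^ p)
    (he2 : ∀ x, x ≠ 0 → -(Δ v x) = ‖x‖ ^ B * u x ^ q) : False := by
  have hcd : ∀ {w : EuclideanSpace ℝ (Fin n) → ℝ}, ContDiffOn ℝ 2 w {0}ᶜ →
      ∀ x, x ≠ 0 → ContDiffAt ℝ 2 w x := fun h x hx =>
    h.contDiffAt (isOpen_compl_singleton.mem_nhds hx)
  rcases hcase with rfl | hA | hB
  · refine false_of_superharmonic_plane hu (hcd hu2) hupos fun x hx => ?_
    have := mul_pos (Real.rpow_pos_of_pos (norm_pos_iff.2 hx) A)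
      (Real.rpow_pos_of_pos (hvpos x) p)
    linarith [he1 x hx]
  · obtain ⟨r, c, hr, hr1, hc, h⟩ := exists_inverse_square_bound hp hA hv (hvpos 0) he1
    exact false_of_inverse_square hn hu (hcd hu2) hr hr1 hc h
  · obtain ⟨r, c, hr, hr1, hc, h⟩ := exists_inverse_square_bound hq hB hu (hupos 0) he2
    exact false_of_inverse_square hn hv (hcd hv2) hr hr1 hc h

end

end Vale.Agent.P100
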